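import Vale.Agent.N278T.Main

/-!
# P278: charts adapted to a foliation and to a splitting of its tangent bundle
-/

set_option linter.all false

open Set Topology Filter Metric Module
open scoped ContDiff Manifold

namespace Vale.Agent.N278X

open Vale.Agent.P278 Vale.Agent.P278.Full

section ift
variable {V W : Type*} [NormedAddCommGroup V] [NormedSpace ℂ V] [NormedAddCommGroup W]
  [NormedSpace ℂ W] {L : Type*} [TopologicalSpace L] [ChartedSpace V L] [IsManifold 𝓘(ℂ, V) ω L]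

set_option backward.isDefEq.respectTransparency false in
/-- The inverse function theorem. -/
theorem exists_holChart [FiniteDimensional ℂ V] [FiniteDimensional ℂ W] {g : L → W} {y : L}
    (hg : ContMDiffAt 𝓘(ℂ, V) 𝓘(ℂ, W) ω g y)
    (hi : ∀ v, mfderiv 𝓘(ℂ, V) 𝓘(ℂ, W) g y v = 0 → v = 0) (hdim : finrank ℂ V = finrank ℂ W)
    {O : Set L} (hO : O ∈ 𝓝 y) :
    ∃ χ : OpenPartialHomeomorph L W, IsHolChart (E := V) χ ∧ y ∈ χ.source ∧ χ.source ⊆ O ∧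
      ∀ z ∈ χ.source, χ z = g z := by
  have : CompleteSpace V := FiniteDimensional.complete ℂ V
  have : CompleteSpace W := FiniteDimensional.complete ℂ W
  set e := chartAt V y with he
  have hed : e.MDifferentiable 𝓘(ℂ, V) 𝓘(ℂ, V) := mdifferentiable_chart y
  have het : ContMDiffOn 𝓘(ℂ, V) 𝓘(ℂ, V) ω e.symm e.target := contMDiffOn_chart_symm
  have hy : y ∈ e.source := mem_chart_source V y
  have hq := e.map_source hy
  let Θ : V → W := fun q => g (e.symm q)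
  have k1 : ContMDiffAt 𝓘(ℂ, V) 𝓘(ℂ, V) ω e.symm (e y) :=
    het.contMDiffAt (e.open_target.mem_nhds hq)
  have hg' : ContMDiffAt 𝓘(ℂ, V) 𝓘(ℂ, W) ω g (e.symm (e y)) := by rw [e.left_inv hy]; exact hg
  have k2 : ContMDiffAt 𝓘(ℂ, V) 𝓘(ℂ, W) ω Θ (e y) := hg'.comp (e y) k1
  have k3 : ContDiffAt ℂ ω Θ (e y) := k2.contDiffAt
  have k4 : mfderiv 𝓘(ℂ, V) 𝓘(ℂ, W) Θ (e y) =
      (mfderiv 𝓘(ℂ, V) 𝓘(ℂ, W) g (e.symm (e y))).comp (mfderiv 𝓘(ℂ, V) 𝓘(ℂ, V) e.symm (e y)) :=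
    mfderiv_comp (e y) (hg'.mdifferentiableAt (by simp)) (k1.mdifferentiableAt (by simp))
  rw [mfderiv_eq_fderiv] at k4
  have hi' : ∀ v, mfderiv 𝓘(ℂ, V) 𝓘(ℂ, W) g (e.symm (e y)) v = 0 → v = 0 := by
    rw [e.left_inv hy]; exact hi
  have hinj : Function.Injective (fderiv ℂ Θ (e y)) := by
    rw [injective_iff_map_eq_zero]
    intro w hw
    rw [k4] at hw
    exact (injective_iff_map_eq_zero _).1 (hed.symm.mfderiv_injective hq) w (hi' _ hw)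
  let T₀ : V ≃ₗ[ℂ] W := LinearMap.linearEquivOfInjective (fderiv ℂ Θ (e y) : V →ₗ[ℂ] W) hinj hdim
  have hT : HasFDerivAt Θ ((T₀.toContinuousLinearEquiv : V ≃L[ℂ] W) : V →L[ℂ] W) (e y) := by
    have k8 : ((T₀.toContinuousLinearEquiv : V ≃L[ℂ] W) : V →L[ℂ] W) = fderiv ℂ Θ (e y) := by
      ext w; rfl
    rw [k8]
    exact (k3.differentiableAt (by simp)).hasFDerivAt
  set h := k3.toOpenPartialHomeomorph Θ hT (by simp) with hh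
  have hh0 : e y ∈ h.source := k3.mem_toOpenPartialHomeomorph_source hT (by simp)
  have hhs : ContDiffAt ℂ ω h.symm (h (e y)) := by
    refine h.contDiffAt_symm (h.map_source hh0) (f₀' := T₀.toContinuousLinearEquiv) ?_ ?_
    · rw [h.left_inv hh0]; exact hT
    · rw [h.left_inv hh0]; exact k3
  set χ₀ : OpenPartialHomeomorph L W := e ≫ₕ h with hχ₀
  have hy₀ : y ∈ χ₀.source := ⟨hy, hh0⟩
  have heq : ∀ z ∈ e.source, χ₀ z = g z := fun z hz => by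
    show g (e.symm (e z)) = g z
    rw [e.left_inv hz]
  have hs : ContMDiffAt 𝓘(ℂ, W) 𝓘(ℂ, V) ω χ₀.symm (χ₀ y) := by
    have k6 : ContMDiffAt 𝓘(ℂ, V) 𝓘(ℂ, V) ω e.symm (h.symm (h (e y))) := by
      rw [h.left_inv hh0]; exact k1
    exact k6.comp (h (e y)) hhs.contMDiffAt
  have e1 := (contMDiffAt_iff_contMDiffAt_nhds (by simp)).1 hg
  have e2 := (χ₀.continuousAt hy₀).eventually ((contMDiffAt_iff_contMDiffAt_nhds (by simp)).1 hs)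
  obtain ⟨O', hO', hOo, hyO⟩ := eventually_nhds_iff.1 (e1.and (e2.and hO))
  refine ⟨χ₀.restrOpen O' hOo, ⟨fun z hz => ?_, fun p hp => ?_⟩, ⟨hy₀, hyO⟩,
    fun z hz => (hO' z hz.2).2.2, fun z hz => heq z hz.1.1⟩
  · refine ((hO' z hz.2).1.congr_of_eventuallyEq ?_).contMDiffWithinAt
    filter_upwards [e.open_source.mem_nhds hz.1.1] with z' hz' using heq z' hz'
  · have k1 := (hO' _ hp.2).2.1
    rw [χ₀.right_inv hp.1] at k1
    exact k1.contMDiffWithinAt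

set_option backward.isDefEq.respectTransparency false in
/-- A map with vanishing derivative near a point is constant near it. -/
theorem eventually_const {f : L → W} {y : L}
    (h : ∀ᶠ z in 𝓝 y, MDifferentiableAt 𝓘(ℂ, V) 𝓘(ℂ, W) f z ∧
      ∀ v, mfderiv 𝓘(ℂ, V) 𝓘(ℂ, W) f z v = 0) : ∀ᶠ z in 𝓝 y, f z = f y := by
  set e := chartAt V y with he
  have hed : e.MDifferentiable 𝓘(ℂ, V) 𝓘(ℂ, V) := mdifferentiable_chart y
  have hy : y ∈ e.source := mem_chart_source V y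
  have h1 : ContinuousAt e.symm (e y) := e.continuousAt_symm (e.map_source hy)
  have h2 : ∀ᶠ q in 𝓝 (e y), MDifferentiableAt 𝓘(ℂ, V) 𝓘(ℂ, W) f (e.symm q) ∧
      ∀ v, mfderiv 𝓘(ℂ, V) 𝓘(ℂ, W) f (e.symm q) v = 0 := by
    apply h1.eventually (p := fun z => MDifferentiableAt 𝓘(ℂ, V) 𝓘(ℂ, W) f z ∧
      ∀ v, mfderiv 𝓘(ℂ, V) 𝓘(ℂ, W) f z v = 0)
    rw [e.left_inv hy]; exact h
  obtain ⟨r, hr, hb⟩ := Metric.eventually_nhds_iff_ball.1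
    (h2.and (e.open_target.mem_nhds (e.map_source hy)))
  have hd : ∀ q ∈ ball (e y) r, HasFDerivAt (f ∘ e.symm) (0 : V →L[ℂ] W) q := by
    intro q hq
    obtain ⟨⟨k1, k2⟩, k3⟩ := hb q hq
    have k4 := hed.mdifferentiableAt_symm k3
    have k5 := mfderiv_comp q k1 k4
    rw [mfderiv_eq_fderiv] at k5
    have k6 := (mdifferentiableAt_iff_differentiableAt.mp (k1.comp q k4)).hasFDerivAt
    have k7 : fderiv ℂ (f ∘ e.symm) q = 0 := by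
      rw [k5]; ext v; exact k2 _
    rwa [k7] at k6
  filter_upwards [(e.continuousAt hy).eventually_mem (ball_mem_nhds _ hr),
    e.open_source.mem_nhds hy] with z hz hzs
  have h6 := isOpen_ball.is_const_of_fderiv_eq_zero (𝕜 := ℂ) (f := f ∘ e.symm)
    (convex_ball (e y) r).isPreconnected
    (fun a ha => (hd a ha).differentiableAt.differentiableWithinAt)
    (fun a ha => (hd a ha).fderiv) hz (mem_ball_self hr)
  simpa only [Function.comp, e.left_inv hzs, e.left_inv hy] using h6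

end ift

theorem exists_left {E C B : Type*} [AddCommGroup E] [Module ℂ E] [NormedAddCommGroup C]
    [NormedSpace ℂ C] [NormedAddCommGroup B] [NormedSpace ℂ B] [FiniteDimensional ℂ E]
    [FiniteDimensional ℂ C] [FiniteDimensional ℂ B] (T : E →ₗ[ℂ] C) (P : Submodule ℂ E)
    (hT : ∀ v ∈ P, T v = 0 → v = 0) (hB : finrank ℂ P = finrank ℂ B) :
    ∃ l : C →L[ℂ] B, ∀ v ∈ P, l (T v) = 0 → v = 0 := by
  obtain ⟨r, hr⟩ := LinearMap.exists_leftInverse_of_injective (T ∘ₗ P.subtype)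
    (LinearMap.ker_eq_bot'.2 fun v hv => Subtype.ext (hT v v.2 hv))
  let e : P ≃ₗ[ℂ] B := LinearEquiv.ofFinrankEq _ _ hB
  refine ⟨LinearMap.toContinuousLinearMap (e.toLinearMap ∘ₗ r), fun v hv h => ?_⟩
  have h1 : r (T v) = ⟨v, hv⟩ := LinearMap.congr_fun hr ⟨v, hv⟩
  have h2 : e (r (T v)) = 0 := h
  rw [h1, e.map_eq_zero_iff] at h2
  exact congrArg Subtype.val h2

variable {E : Type*} [NormedAddCommGroup E] [NormedSpace ℂ E]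
  {X : Type*} [TopologicalSpace X] [ChartedSpace E X]

section defs
variable (F F₁ F₂ : TangentDist E X) (W A B C : Type*) [NormedAddCommGroup W] [NormedSpace ℂ W]
  [NormedAddCommGroup A] [NormedSpace ℂ A] [NormedAddCommGroup B] [NormedSpace ℂ B]
  [NormedAddCommGroup C] [NormedSpace ℂ C]

/-- The charts adapted to `F`. -/
def folCharts : Set (OpenPartialHomeomorph X (W × C)) :=
  {φ | IsHolChart (E := E) φ ∧ ∀ x ∈ φ.source, ∀ v : TangentSpace 𝓘(ℂ, E) x,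
    (v ∈ F x ↔ (mfderiv 𝓘(ℂ, E) 𝓘(ℂ, W × C) φ x v : W × C).2 = 0)}

/-- The charts adapted to `F`, `F₁` and `F₂`. -/
def triCharts : Set (OpenPartialHomeomorph X ((A × B) × C)) :=
  {φ | φ ∈ folCharts F (A × B) C ∧ ∀ x ∈ φ.source, ∀ v ∈ F x,
    (v ∈ F₁ x ↔ (mfderiv 𝓘(ℂ, E) 𝓘(ℂ, (A × B) × C) φ x v : (A × B) × C).1.2 = 0) ∧
    (v ∈ F₂ x ↔ (mfderiv 𝓘(ℂ, E) 𝓘(ℂ, (A × B) × C) φ x v : (A × B) × C).1.1 = 0)}

end defs

variable {F F₁ F₂ : TangentDist E X} {W A B C : Type*} [NormedAddCommGroup W] [NormedSpace ℂ W]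
  [NormedAddCommGroup A] [NormedSpace ℂ A] [NormedAddCommGroup B] [NormedSpace ℂ B]
  [NormedAddCommGroup C] [NormedSpace ℂ C]

theorem holChart_inj {φ : OpenPartialHomeomorph X W} (hφ : IsHolChart (E := E) φ) {x : X}
    (hx : x ∈ φ.source) (v : E) (h : (mfderiv 𝓘(ℂ, E) 𝓘(ℂ, W) φ x v : W) = 0) : v = 0 := by
  have h1 := hφ.chartD_mfderiv hx v
  rw [h] at h1
  exact h1.symm.trans (map_zero (chartD (E := E) φ (φ x)))

theorem mfderiv_pair [IsManifold 𝓘(ℂ, E) ω X] {g : X → A} {g' : X → B} {x : X}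
    (hg : MDifferentiableAt 𝓘(ℂ, E) 𝓘(ℂ, A) g x) (hg' : MDifferentiableAt 𝓘(ℂ, E) 𝓘(ℂ, B) g' x)
    (v : TangentSpace 𝓘(ℂ, E) x) :
    (mfderiv 𝓘(ℂ, E) 𝓘(ℂ, A × B) (fun y => (g y, g' y)) x v : A × B) =
      ((mfderiv 𝓘(ℂ, E) 𝓘(ℂ, A) g x v : A), (mfderiv 𝓘(ℂ, E) 𝓘(ℂ, B) g' x v : B)) := by
  have k0 : MDifferentiableAt 𝓘(ℂ, E) 𝓘(ℂ, A × B) (fun y => (g y, g' y)) x := hg.prodMk_space hg'
  have k1 := mfderiv_clm_comp (ContinuousLinearMap.fst ℂ A B) k0 v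
  have k2 := mfderiv_clm_comp (ContinuousLinearMap.snd ℂ A B) k0 v
  exact Prod.ext k1.symm k2.symm

variable [IsManifold 𝓘(ℂ, E) ω X] [FiniteDimensional ℂ E] [FiniteDimensional ℂ W]
  [FiniteDimensional ℂ A] [FiniteDimensional ℂ B] [FiniteDimensional ℂ C]

set_option backward.isDefEq.respectTransparency false in
theorem exists_mem_folCharts (h : IsHolSubbundle F) (i : IsIntegrable F) (x₀ : X)
    (hW : finrank ℂ (F x₀) = finrank ℂ W) (hC : finrank ℂ C + finrank ℂ (F x₀) = finrank ℂ E) :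
    ∃ φ ∈ folCharts F W C, x₀ ∈ φ.source := by
  obtain ⟨C₀, g, hC₀, hg⟩ := exists_local_first_integral h i x₀
  have hfd : FiniteDimensional ℂ (TangentSpace 𝓘(ℂ, E) x₀) :=
    inferInstanceAs (FiniteDimensional ℂ E)
  let l₀ : C₀ ≃L[ℂ] C := ContinuousLinearEquiv.ofFinrankEq (by omega)
  set e := chartAt E x₀ with he
  have hec : IsHolChart (E := E) e := isHolChart_of_mem (IsManifold.chart_mem_maximalAtlas x₀)
  have hx₀ : x₀ ∈ e.source := mem_chart_source E x₀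
  obtain ⟨l, hl⟩ := exists_left (C := E) (B := W) (mfderiv 𝓘(ℂ, E) 𝓘(ℂ, E) e x₀).toLinearMap
    (F x₀) (fun v _ hv => holChart_inj hec hx₀ v hv) hW
  let Ξ : X → W × C := fun x => (l (e x), l₀ (g x))
  obtain ⟨O, hO, hOo, hxO⟩ := eventually_nhds_iff.1 (hg.and (e.open_source.mem_nhds hx₀))
  have hΞ : ∀ x ∈ O, ContMDiffAt 𝓘(ℂ, E) 𝓘(ℂ, W × C) ω Ξ x ∧ ∀ v : TangentSpace 𝓘(ℂ, E) x,
      (mfderiv 𝓘(ℂ, E) 𝓘(ℂ, W × C) Ξ x v : W × C) =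
        (l (mfderiv 𝓘(ℂ, E) 𝓘(ℂ, E) e x v), l₀ (mfderiv 𝓘(ℂ, E) 𝓘(ℂ, C₀) g x v)) := by
    intro x hx
    have k0 : ContMDiffAt 𝓘(ℂ, E) 𝓘(ℂ, E) ω e x :=
      hec.toFun.contMDiffAt (e.open_source.mem_nhds (hO x hx).2)
    have k1 : ContMDiffAt 𝓘(ℂ, E) 𝓘(ℂ, W) ω (fun y => l (e y)) x :=
      (l.contDiff.contMDiff.contMDiffAt).comp x k0
    have k2 : ContMDiffAt 𝓘(ℂ, E) 𝓘(ℂ, C) ω (fun y => l₀ (g y)) x :=
      (l₀.contDiff.contMDiff.contMDiffAt).comp x (hO x hx).1.1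
    refine ⟨k1.prodMk_space k2, fun v => ?_⟩
    refine (mfderiv_pair (k1.mdifferentiableAt (by simp)) (k2.mdifferentiableAt (by simp)) v).trans
      (Prod.ext ?_ ?_)
    · exact mfderiv_clm_comp l (k0.mdifferentiableAt (by simp)) v
    · exact mfderiv_clm_comp (l₀ : C₀ →L[ℂ] C) ((hO x hx).1.1.mdifferentiableAt (by simp)) v
  have hk : ∀ x ∈ O, ∀ v : TangentSpace 𝓘(ℂ, E) x,
      (v ∈ F x ↔ (mfderiv 𝓘(ℂ, E) 𝓘(ℂ, W × C) Ξ x v : W × C).2 = 0) := by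
    intro x hx v
    rw [(hΞ x hx).2 v]
    show _ ↔ l₀ (mfderiv 𝓘(ℂ, E) 𝓘(ℂ, C₀) g x v : C₀) = 0
    rw [l₀.map_eq_zero_iff]
    exact (hO x hx).1.2 v
  obtain ⟨φ, h1, h2, h3, h4⟩ := exists_holChart (hΞ x₀ hxO).1 (fun v hv => by
    have k1 := (hk x₀ hxO v).2 (by rw [hv]; rfl)
    rw [(hΞ x₀ hxO).2 v] at hv
    exact hl v k1 (congrArg Prod.fst hv)) (by rw [finrank_prod]; omega) (hOo.mem_nhds hxO)
  refine ⟨φ, ⟨h1, fun x hx v => ?_⟩, h2⟩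
  have hev : φ =ᶠ[𝓝 x] Ξ := by
    filter_upwards [φ.open_source.mem_nhds hx] with z hz using h4 z hz
  rw [hev.mfderiv_eq]
  exact hk x (h3 hx) v

set_option backward.isDefEq.respectTransparency false in
theorem exists_mem_triCharts (h : IsHolSubbundle F) (i : IsIntegrable F)
    (h₁ : IsHolSubbundle F₁) (i₁ : IsIntegrable F₁) (h₂ : IsHolSubbundle F₂)
    (i₂ : IsIntegrable F₂) (hd : ∀ x, Disjoint (F₁ x) (F₂ x)) (hs : ∀ x, F₁ x ⊔ F₂ x = F x)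
    (x₀ : X) (hA : finrank ℂ (F₁ x₀) = finrank ℂ A) (hB : finrank ℂ (F₂ x₀) = finrank ℂ B)
    (hC : finrank ℂ C + finrank ℂ (F x₀) = finrank ℂ E) :
    ∃ φ ∈ triCharts F F₁ F₂ A B C, x₀ ∈ φ.source := by
  obtain ⟨C₀, g, hC₀, hg⟩ := exists_local_first_integral h i x₀
  obtain ⟨C₁, g₁, -, hg₁⟩ := exists_local_first_integral h₁ i₁ x₀
  obtain ⟨C₂, g₂, -, hg₂⟩ := exists_local_first_integral h₂ i₂ x₀
  have hfd : FiniteDimensional ℂ (TangentSpace 𝓘(ℂ, E) x₀) :=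
    inferInstanceAs (FiniteDimensional ℂ E)
  have hsum : finrank ℂ (F₁ x₀) + finrank ℂ (F₂ x₀) = finrank ℂ (F x₀) := by
    rw [← hs x₀, ← Submodule.finrank_sup_add_finrank_inf_eq, (hd x₀).eq_bot, finrank_bot, add_zero]
  let l₀ : C₀ ≃L[ℂ] C := ContinuousLinearEquiv.ofFinrankEq (by omega)
  obtain ⟨O, hO, hOo, hxO⟩ := eventually_nhds_iff.1 (hg.and (hg₁.and hg₂))
  obtain ⟨l₁, hl₁⟩ := exists_left (C := C₁) (B := B) (mfderiv 𝓘(ℂ, E) 𝓘(ℂ, C₁) g₁ x₀).toLinearMap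
    (F₂ x₀) (fun v hv hv' => Submodule.disjoint_def.1 (hd x₀) v
      (((hO x₀ hxO).2.1.2 v).2 hv') hv) hB
  obtain ⟨l₂, hl₂⟩ := exists_left (C := C₂) (B := A) (mfderiv 𝓘(ℂ, E) 𝓘(ℂ, C₂) g₂ x₀).toLinearMap
    (F₁ x₀) (fun v hv hv' => Submodule.disjoint_def.1 (hd x₀) v hv
      (((hO x₀ hxO).2.2.2 v).2 hv')) hA
  let Ξ : X → (A × B) × C := fun x => ((l₂ (g₂ x), l₁ (g₁ x)), l₀ (g x))
  have hΞ : ∀ x ∈ O, ContMDiffAt 𝓘(ℂ, E) 𝓘(ℂ, (A × B) × C) ω Ξ x ∧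
      ∀ v : TangentSpace 𝓘(ℂ, E) x,
      (mfderiv 𝓘(ℂ, E) 𝓘(ℂ, (A × B) × C) Ξ x v : (A × B) × C) =
        ((l₂ (mfderiv 𝓘(ℂ, E) 𝓘(ℂ, C₂) g₂ x v), l₁ (mfderiv 𝓘(ℂ, E) 𝓘(ℂ, C₁) g₁ x v)),
          l₀ (mfderiv 𝓘(ℂ, E) 𝓘(ℂ, C₀) g x v)) := by
    intro x hx
    have k0 : ContMDiffAt 𝓘(ℂ, E) 𝓘(ℂ, C) ω (fun y => l₀ (g y)) x :=
      (l₀.contDiff.contMDiff.contMDiffAt).comp x (hO x hx).1.1
    have k1 : ContMDiffAt 𝓘(ℂ, E) 𝓘(ℂ, B) ω (fun y => l₁ (g₁ y)) x :=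
      (l₁.contDiff.contMDiff.contMDiffAt).comp x (hO x hx).2.1.1
    have k2 : ContMDiffAt 𝓘(ℂ, E) 𝓘(ℂ, A) ω (fun y => l₂ (g₂ y)) x :=
      (l₂.contDiff.contMDiff.contMDiffAt).comp x (hO x hx).2.2.1
    have k3 := k2.prodMk_space k1
    refine ⟨k3.prodMk_space k0, fun v => ?_⟩
    refine (mfderiv_pair (k3.mdifferentiableAt (by simp)) (k0.mdifferentiableAt (by simp)) v).trans
      (Prod.ext ?_ ?_)
    · refine (mfderiv_pair (k2.mdifferentiableAt (by simp)) (k1.mdifferentiableAt (by simp))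
        v).trans (Prod.ext ?_ ?_)
      · exact mfderiv_clm_comp l₂ ((hO x hx).2.2.1.mdifferentiableAt (by simp)) v
      · exact mfderiv_clm_comp l₁ ((hO x hx).2.1.1.mdifferentiableAt (by simp)) v
    · exact mfderiv_clm_comp (l₀ : C₀ →L[ℂ] C) ((hO x hx).1.1.mdifferentiableAt (by simp)) v
  have hk : ∀ x ∈ O, ∀ v : TangentSpace 𝓘(ℂ, E) x,
      (v ∈ F x ↔ (mfderiv 𝓘(ℂ, E) 𝓘(ℂ, (A × B) × C) Ξ x v : (A × B) × C).2 = 0) := by
    intro x hx v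
    rw [(hΞ x hx).2 v]
    show _ ↔ l₀ (mfderiv 𝓘(ℂ, E) 𝓘(ℂ, C₀) g x v : C₀) = 0
    rw [l₀.map_eq_zero_iff]
    exact (hO x hx).1.2 v
  have hk₁ : ∀ x ∈ O, ∀ v ∈ F₁ x,
      (mfderiv 𝓘(ℂ, E) 𝓘(ℂ, (A × B) × C) Ξ x v : (A × B) × C).1.2 = 0 := by
    intro x hx v hv
    rw [(hΞ x hx).2 v]
    show l₁ (mfderiv 𝓘(ℂ, E) 𝓘(ℂ, C₁) g₁ x v : C₁) = 0
    rw [((hO x hx).2.1.2 v).1 hv, map_zero]
  have hk₂ : ∀ x ∈ O, ∀ v ∈ F₂ x,
      (mfderiv 𝓘(ℂ, E) 𝓘(ℂ, (A × B) × C) Ξ x v : (A × B) × C).1.1 = 0 := by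
    intro x hx v hv
    rw [(hΞ x hx).2 v]
    show l₂ (mfderiv 𝓘(ℂ, E) 𝓘(ℂ, C₂) g₂ x v : C₂) = 0
    rw [((hO x hx).2.2.2 v).1 hv, map_zero]
  obtain ⟨φ, h1, h2, h3, h4⟩ := exists_holChart (hΞ x₀ hxO).1 (fun v hv => by
    have k1 := (hk x₀ hxO v).2 (by rw [hv]; rfl)
    rw [← hs x₀] at k1
    obtain ⟨a, ha, b, hb, rfl⟩ := Submodule.mem_sup.1 k1
    rw [map_add] at hv
    have k2 := congrArg (fun p : (A × B) × C => p.1.1) hv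
    have k3 := congrArg (fun p : (A × B) × C => p.1.2) hv
    have k4 : (mfderiv 𝓘(ℂ, E) 𝓘(ℂ, (A × B) × C) Ξ x₀ a : (A × B) × C).1.1 +
      (mfderiv 𝓘(ℂ, E) 𝓘(ℂ, (A × B) × C) Ξ x₀ b : (A × B) × C).1.1 = 0 := k2
    have k5 : (mfderiv 𝓘(ℂ, E) 𝓘(ℂ, (A × B) × C) Ξ x₀ a : (A × B) × C).1.2 +
      (mfderiv 𝓘(ℂ, E) 𝓘(ℂ, (A × B) × C) Ξ x₀ b : (A × B) × C).1.2 = 0 := k3
    rw [hk₂ x₀ hxO b hb, add_zero, (hΞ x₀ hxO).2 a] at k4
    rw [hk₁ x₀ hxO a ha, zero_add, (hΞ x₀ hxO).2 b] at k5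
    rw [hl₂ a ha k4, hl₁ b hb k5, add_zero]) (by rw [finrank_prod, finrank_prod]; omega)
    (hOo.mem_nhds hxO)
  have hev : ∀ x ∈ φ.source, φ =ᶠ[𝓝 x] Ξ := fun x hx => by
    filter_upwards [φ.open_source.mem_nhds hx] with z hz using h4 z hz
  refine ⟨φ, ⟨⟨h1, fun x hx v => ?_⟩, fun x hx v hv => ?_⟩, h2⟩
  · rw [(hev x hx).mfderiv_eq]
    exact hk x (h3 hx) v
  · have hi := holChart_inj h1 hx
    rw [(hev x hx).mfderiv_eq] at hi ⊢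
    rw [← hs x] at hv
    obtain ⟨a, ha, b, hb, rfl⟩ := Submodule.mem_sup.1 hv
    have ka := (hk x (h3 hx) a).1 (by rw [← hs x]; exact Submodule.mem_sup_left ha)
    have kb := (hk x (h3 hx) b).1 (by rw [← hs x]; exact Submodule.mem_sup_right hb)
    refine ⟨⟨hk₁ x (h3 hx) _, fun hv => ?_⟩, ⟨hk₂ x (h3 hx) _, fun hv => ?_⟩⟩
    · rw [map_add] at hv
      have k5 : (mfderiv 𝓘(ℂ, E) 𝓘(ℂ, (A × B) × C) Ξ x a : (A × B) × C).1.2 +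
        (mfderiv 𝓘(ℂ, E) 𝓘(ℂ, (A × B) × C) Ξ x b : (A × B) × C).1.2 = 0 := hv
      rw [hk₁ x (h3 hx) a ha, zero_add] at k5
      rw [hi b (Prod.ext (Prod.ext (hk₂ x (h3 hx) b hb) k5) kb), add_zero]
      exact ha
    · rw [map_add] at hv
      have k5 : (mfderiv 𝓘(ℂ, E) 𝓘(ℂ, (A × B) × C) Ξ x a : (A × B) × C).1.1 +
        (mfderiv 𝓘(ℂ, E) 𝓘(ℂ, (A × B) × C) Ξ x b : (A × B) × C).1.1 = 0 := hv
      rw [hk₂ x (h3 hx) b hb, add_zero] at k5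
      rw [hi a (Prod.ext (Prod.ext k5 (hk₁ x (h3 hx) a ha)) ka), zero_add]
      exact hb

end Vale.Agent.N278X
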