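import Mathlib.Analysis.Calculus.DifferentialForm.Basic
import Mathlib.Analysis.Complex.Basic
import Mathlib.AlgebraicTopology.FundamentalGroupoid.SimplyConnected
import Mathlib.Geometry.Manifold.LocalDiffeomorph
import Mathlib.Geometry.Manifold.VectorField.LieBracket
import Mathlib.Topology.Covering.Basic

/-!
# P278: splittings, leaves, universal coverings and products
-/

open Set Topology
open scoped ContDiff Manifold

namespace Vale.Agent.N278X

universe u

variable (E : Type*) [NormedAddCommGroup E] [NormedSpace ℂ E]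
  (X : Type*) [TopologicalSpace X] [ChartedSpace E X]

/-- A complex subspace of each tangent space. -/
abbrev Plane : Type _ := ∀ x : X, Submodule ℂ (TangentSpace 𝓘(ℂ, E) x)

/-- A real alternating two-form on each tangent space. -/
abbrev TwoForm : Type _ := ∀ x : X, TangentSpace 𝓘(ℂ, E) x [⋀^Fin 2]→L[ℝ] ℝ

/-- `X` is a Hausdorff, second countable, simply connected (hence connected) complex manifold
modelled on the finite dimensional space `E`. -/
def Factor : Prop :=
  FiniteDimensional ℂ E ∧ IsManifold 𝓘(ℂ, E) ω X ∧ T2Space X ∧ SecondCountableTopology X ∧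
    SimplyConnectedSpace X

variable {X} in
/-- `π : M → X` is a universal covering and a local biholomorphism of complex manifolds. -/
def UnivCover {M : Type*} [TopologicalSpace M] [ChartedSpace E M] (π : M → X) : Prop :=
  IsCoveringMap π ∧ π.Surjective ∧ SimplyConnectedSpace M ∧ IsManifold 𝓘(ℂ, E) ω M ∧
    IsLocalDiffeomorph 𝓘(ℂ, E) 𝓘(ℂ, E) ω π

variable {E X}

/-- The form `s` in the coordinates given by the chart `φ`. -/
noncomputable def inChart (s : TwoForm E X) (φ : OpenPartialHomeomorph X E) (p : E) :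
    E [⋀^Fin 2]→L[ℝ] ℝ :=
  (s (φ.symm p)).compContinuousLinearMap ((mfderiv 𝓘(ℂ, E) 𝓘(ℂ, E) φ.symm p).restrictScalars ℝ)

/-- `s` is smooth, `s (v, J v) > 0` for `v ≠ 0` in `F`, and `ds` vanishes on triples of vectors of
`F`. -/
def Tames (s : TwoForm E X) (F : Plane E X) : Prop :=
  (∀ x, ∀ v ∈ F x, v ≠ 0 → 0 < s x ![v, Complex.I • v]) ∧
    ∀ φ ∈ IsManifold.maximalAtlas 𝓘(ℂ, E) ω X, ContDiffOn ℝ ∞ (inChart s φ) φ.target ∧
      ∀ p ∈ φ.target, ∀ v : Fin 3 → E,
        (∀ i, mfderiv 𝓘(ℂ, E) 𝓘(ℂ, E) φ.symm p (v i) ∈ F (φ.symm p)) →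
          extDeriv (inChart s φ) p v = 0

/-- `s` is a Kähler form: smooth, positive, closed and `J`-invariant. -/
def Kahler (s : TwoForm E X) : Prop :=
  Tames s ⊤ ∧ ∀ x u v, s x ![Complex.I • u, Complex.I • v] = s x ![u, v]

section
variable (V : Type*) [NormedAddCommGroup V] [NormedSpace ℂ V]

/-- `j : L → X` is a leaf of `F`: an injective holomorphic immersion of a connected complex
manifold with `dj (T L) = F`, whose image contains every holomorphic disc tangent to `F` with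
centre in the image. -/
def Leaf (F : Plane E X) {L : Type*} [TopologicalSpace L] [ChartedSpace V L] (j : L → X) : Prop :=
  IsManifold 𝓘(ℂ, V) ω L ∧ ConnectedSpace L ∧ ContMDiff 𝓘(ℂ, V) 𝓘(ℂ, E) ω j ∧ j.Injective ∧
    (∀ y, Function.Injective (mfderiv 𝓘(ℂ, V) 𝓘(ℂ, E) j y) ∧
      (mfderiv 𝓘(ℂ, V) 𝓘(ℂ, E) j y).range = F (j y)) ∧
    ∀ f : ℂ → X, ContMDiffOn 𝓘(ℂ, ℂ) 𝓘(ℂ, E) ω f (Metric.ball 0 1) →
      (∀ z ∈ Metric.ball 0 1, mfderiv 𝓘(ℂ, ℂ) 𝓘(ℂ, E) f z (1 : ℂ) ∈ F (f z)) →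
      f 0 ∈ range j → f '' Metric.ball 0 1 ⊆ range j

variable {k : ℕ} (F : Fin k → Plane E X) {M : Type u} [TopologicalSpace M] [ChartedSpace V M]
  (ι : M → X)

/-- There is a biholomorphism `Φ : M → N` such that at every point `dΦ` maps `ι^* F_i` onto
`Q i`. -/
def MapsOnto {W H : Type*} [NormedAddCommGroup W] [NormedSpace ℂ W] [TopologicalSpace H]
    (I : ModelWithCorners ℂ W H) (N : Type*) [TopologicalSpace N] [ChartedSpace H N]
    (Q : Fin k → Set W) : Prop :=
  ∃ Φ : Diffeomorph 𝓘(ℂ, V) I M N ω, ∀ i m (w : W),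
    (∃ v, mfderiv 𝓘(ℂ, V) 𝓘(ℂ, E) ι m v ∈ F i (ι m) ∧ mfderiv 𝓘(ℂ, V) I Φ m v = w) ↔ w ∈ Q i

/-- The `Y i` are simply connected complex manifolds and there is a biholomorphism
`Φ : M → ∏ Y i` such that `dΦ` maps `ι^* F_i` onto `pr_i^* T_{Y i}`, the tangent vectors of the
product whose components of index `l ≠ i` vanish. -/
def Splits (A : Fin k → Type) [∀ i, NormedAddCommGroup (A i)] [∀ i, NormedSpace ℂ (A i)]
    (Y : Fin k → Type u) [∀ i, TopologicalSpace (Y i)] [∀ i, ChartedSpace (A i) (Y i)] : Prop :=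
  (∀ i, Factor (A i) (Y i)) ∧ MapsOnto V F ι (ModelWithCorners.pi fun i => 𝓘(ℂ, A i)) (∀ i, Y i)
    fun i => {w | ∀ l ≠ i, w l = 0}

/-- `M` is a product of simply connected complex manifolds, compatibly with the `ι^* F_i`. -/
def Product : Prop :=
  ∃ (A : Fin k → Type) (_ : ∀ i, NormedAddCommGroup (A i)) (_ : ∀ i, NormedSpace ℂ (A i))
    (Y : Fin k → Type u) (_ : ∀ i, TopologicalSpace (Y i)) (_ : ∀ i, ChartedSpace (A i) (Y i)),
    Splits V F ι A Y

end

variable [IsManifold 𝓘(ℂ, E) 1 X]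

/-- `V` is a holomorphic section of `F` over `U`. -/
def Sec (F : Plane E X) (U : Set X) (V : ∀ x : X, TangentSpace 𝓘(ℂ, E) x) : Prop :=
  ContMDiffOn 𝓘(ℂ, E) 𝓘(ℂ, E).tangent ω (fun x => (⟨x, V x⟩ : TangentBundle 𝓘(ℂ, E) X)) U ∧
    ∀ x ∈ U, V x ∈ F x

/-- `F` is a holomorphic subbundle of the tangent bundle: it has local holomorphic frames. -/
def Subbundle (F : Plane E X) : Prop :=
  ∀ x₀ : X, ∃ U ∈ 𝓝 x₀, ∃ (r : ℕ) (s : Fin r → ∀ x : X, TangentSpace 𝓘(ℂ, E) x),
    (∀ j, Sec F U (s j)) ∧ ∀ x ∈ U, LinearIndependent ℂ (fun j => s j x) ∧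
      Submodule.span ℂ (range fun j => s j x) = F x

/-- `F` is integrable: its local holomorphic sections are closed under the Lie bracket. -/
def Involutive (F : Plane E X) : Prop :=
  ∀ U V W, IsOpen U → Sec F U V → Sec F U W →
    ∀ x ∈ U, VectorField.mlieBracket 𝓘(ℂ, E) V W x ∈ F x

end Vale.Agent.N278X
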