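import Vale.Agent.N278X.Slice

/-!
# P278: existence of leaves
-/

set_option linter.all false

open Set Topology Filter Metric Module
open scoped ContDiff Manifold

namespace Vale.Agent.N278X

open Vale.Agent.P278 Vale.Agent.P278.Full Vale.Agent.P300.H903

variable {E : Type*} [NormedAddCommGroup E] [NormedSpace ℂ E]
  {X : Type*} [TopologicalSpace X] [ChartedSpace E X]
  {W C : Type*} [NormedAddCommGroup W] [NormedSpace ℂ W] [NormedAddCommGroup C] [NormedSpace ℂ C]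
  {F : TangentDist E X}

set_option backward.isDefEq.respectTransparency false in
/-- A map tangent to `F` stays in a plaque. -/
theorem eventually_plaque {N V : Type*} [NormedAddCommGroup V] [NormedSpace ℂ V]
    [TopologicalSpace N] [ChartedSpace V N] [IsManifold 𝓘(ℂ, V) ω N] {f : N → X} {y : N}
    (hf : ∀ᶠ z in 𝓝 y, MDifferentiableAt 𝓘(ℂ, V) 𝓘(ℂ, E) f z ∧
      ∀ v, mfderiv 𝓘(ℂ, V) 𝓘(ℂ, E) f z v ∈ F (f z))
    {φ : OpenPartialHomeomorph X (W × C)} (hφ : φ ∈ folCharts F W C) (hy : f y ∈ φ.source) :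
    ∀ᶠ z in 𝓝 y, f z ∈ φ.source ∧ (φ (f z)).2 = (φ (f y)).2 := by
  have h1 : ∀ᶠ z in 𝓝 y, f z ∈ φ.source :=
    hf.self_of_nhds.1.continuousAt.eventually_mem (φ.open_source.mem_nhds hy)
  refine h1.and (eventually_const (V := V) (f := fun z => (φ (f z)).2) ?_)
  filter_upwards [h1, hf] with z hz hz'
  have k3 : MDifferentiableAt 𝓘(ℂ, V) 𝓘(ℂ, W × C) (fun z => φ (f z)) z :=
    (hφ.1.mdiffAt hz).comp z hz'.1
  refine ⟨(ContinuousLinearMap.snd ℂ W C).differentiableAt.mdifferentiableAt.comp z k3,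
    fun v => ?_⟩
  refine (mfderiv_clm_comp (ContinuousLinearMap.snd ℂ W C) k3 v).trans ?_
  have k2 := congrArg (fun T : V →L[ℂ] W × C => T v) (mfderiv_comp z (hφ.1.mdiffAt hz) hz'.1)
  exact (congrArg Prod.snd k2).trans ((hφ.2 _ hz _).1 (hz'.2 v))

set_option backward.isDefEq.respectTransparency false in
theorem param_deriv {φ : OpenPartialHomeomorph X (W × C)} (hφ : IsHolChart (E := E) φ) {a : W}
    {c : C} (h : (a, c) ∈ φ.target) :
    ContMDiffAt 𝓘(ℂ, W) 𝓘(ℂ, E) ω (fun a => φ.symm (a, c)) a ∧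
      ∀ u, (mfderiv 𝓘(ℂ, W) 𝓘(ℂ, E) (fun a => φ.symm (a, c)) a u : E) =
        chartD (E := E) φ (a, c) (u, 0) := by
  have k0 : HasFDerivAt (fun q : W => ((q, c) : W × C)) (ContinuousLinearMap.inl ℂ W C) a :=
    hasFDerivAt_prodMk_left a c
  have k2 := mfderiv_comp (f := fun q : W => ((q, c) : W × C)) a (hφ.mdiffAt_symm h)
    k0.differentiableAt.mdifferentiableAt
  rw [mfderiv_eq_fderiv, k0.fderiv] at k2
  exact ⟨ContMDiffAt.comp (f := fun q : W => ((q, c) : W × C)) a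
    (hφ.invFun.contMDiffAt (φ.open_target.mem_nhds h))
    (contDiff_prodMk_left c).contMDiff.contMDiffAt,
    fun u => congrArg (fun T : W →L[ℂ] E => T u) k2⟩

theorem mem_chartD {φ : OpenPartialHomeomorph X (W × C)} (hφ : φ ∈ folCharts F W C) {q : W × C}
    (hq : q ∈ φ.target) (u : W) : chartD (E := E) φ q (u, 0) ∈ F (φ.symm q) :=
  (hφ.2 _ (φ.map_target hq) _).2 (congrArg Prod.snd (hφ.1.mfderiv_chartD hq (u, 0)))

theorem anaFolAtlas (hcov : ∀ x, ∃ φ ∈ folCharts F W C, x ∈ φ.source) :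
    AnaFolAtlas (folCharts F W C) where
  cover := hcov
  trans φ hφ ψ hψ x hx hx' := by
    have h0 : ((φ x).1, (φ x).2) ∈ φ.target := φ.map_source hx
    have h1 : ∀ᶠ a in 𝓝 (φ x).1, (a, (φ x).2) ∈ φ.target :=
      ContinuousAt.eventually_mem (f := fun a => (a, (φ x).2)) (by fun_prop)
        (φ.open_target.mem_nhds h0)
    have h2 := eventually_plaque (V := W) (f := fun a => φ.symm (a, (φ x).2)) (y := (φ x).1)
      (h1.mono fun a ha => ⟨(param_deriv hφ.1 ha).1.mdifferentiableAt (by simp), fun v => by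
        rw [(param_deriv hφ.1 ha).2]; exact mem_chartD hφ ha v⟩) hψ
      (by show φ.symm (φ x) ∈ _; rw [φ.left_inv hx]; exact hx')
    filter_upwards [(continuousAt_fst.comp (φ.continuousAt hx)).eventually h2,
      φ.open_source.mem_nhds hx] with y hy hys e
    have h3 : (ψ (φ.symm ((φ y).1, (φ x).2))).2 = (ψ (φ.symm (φ x))).2 := hy.2
    rw [φ.left_inv hx, ← e] at h3
    rw [← h3]
    show _ = (ψ (φ.symm (φ y))).2
    rw [φ.left_inv hys]
  ana φ hφ ψ hψ := by
    rw [← contMDiffOn_iff_contDiffOn]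
    exact hψ.1.toFun.comp (hφ.1.invFun.mono fun p hp => hp.1) fun p hp => hp.2

set_option backward.isDefEq.respectTransparency false in
theorem toM_deriv [AnaFolAtlas (folCharts F W C)] (y : P278.Leaf (folCharts F W C)) :
    ContMDiffAt 𝓘(ℂ, W) 𝓘(ℂ, E) ω (Leaf.toM (folCharts F W C)) y ∧
    Function.Injective (mfderiv 𝓘(ℂ, W) 𝓘(ℂ, E) (Leaf.toM (folCharts F W C)) y) ∧
    (mfderiv 𝓘(ℂ, W) 𝓘(ℂ, E) (Leaf.toM (folCharts F W C)) y).range =
      F (Leaf.toM (folCharts F W C) y) := by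
  obtain ⟨φ, hφ, hz⟩ := FolAtlas.cover (𝒜 := folCharts F W C) (Leaf.toM _ y)
  set c : C := (φ (Leaf.toM _ y)).2 with hc
  set χ := Leaf.plaque φ hφ c with hχ
  have hχc : IsHolChart (E := W) χ :=
    isHolChart_of_mem (IsManifold.subset_maximalAtlas ⟨φ, hφ, c, rfl⟩)
  have hmem : y ∈ χ.source := ⟨hz, rfl⟩
  have ht : (χ y, c) ∈ φ.target := χ.map_source hmem
  have hq : (χ y, c) = φ (Leaf.toM _ y) := rfl
  have h1 : Leaf.toM (folCharts F W C) =ᶠ[𝓝 y] (fun a => φ.symm (a, c)) ∘ χ := by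
    filter_upwards [χ.open_source.mem_nhds hmem] with z' hz'
    exact (congrArg (Leaf.toM _) (χ.left_inv hz')).symm
  obtain ⟨k1, k2⟩ := param_deriv hφ.1 ht
  have k3 : ∀ v, (mfderiv 𝓘(ℂ, W) 𝓘(ℂ, E) (Leaf.toM (folCharts F W C)) y v : E) =
      chartD (E := E) φ (φ (Leaf.toM _ y)) (mfderiv 𝓘(ℂ, W) 𝓘(ℂ, W) χ y v, 0) := by
    intro v
    have k4 := h1.mfderiv_eq.trans
      (mfderiv_comp y (k1.mdifferentiableAt (by simp)) (hχc.mdiffAt hmem))
    exact (congrArg (fun T : W →L[ℂ] E => T v) k4).trans (k2 _)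
  have k5 : ∀ u : W × C, (mfderiv 𝓘(ℂ, E) 𝓘(ℂ, W × C) φ (Leaf.toM _ y)
      (chartD (E := E) φ (φ (Leaf.toM _ y)) u) : W × C) = u := by
    intro u
    have k6 := hφ.1.mfderiv_chartD (φ.map_source hz) u
    have k7 : ∀ x x' : X, x = x' → ∀ a : E, (mfderiv 𝓘(ℂ, E) 𝓘(ℂ, W × C) φ x a : W × C) =
        mfderiv 𝓘(ℂ, E) 𝓘(ℂ, W × C) φ x' a := by
      rintro x _ rfl a; rfl
    exact (k7 _ _ (φ.left_inv hz).symm _).trans k6
  refine ⟨(k1.comp y (hχc.toFun.contMDiffAt (χ.open_source.mem_nhds hmem))).congr_of_eventuallyEq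
    h1, (injective_iff_map_eq_zero _).2 fun v hv => ?_, ?_⟩
  · have k6 := k5 (mfderiv 𝓘(ℂ, W) 𝓘(ℂ, W) χ y v, 0)
    rw [← k3, hv, map_zero] at k6
    exact holChart_inj hχc hmem v (congrArg Prod.fst k6).symm
  · ext a
    constructor
    · rintro ⟨v, rfl⟩
      refine (hφ.2 _ hz _).2 ?_
      exact (congrArg (fun a : E => (mfderiv 𝓘(ℂ, E) 𝓘(ℂ, W × C) φ (Leaf.toM _ y) a : W × C).2)
        (k3 v)).trans (congrArg Prod.snd (k5 _))
    · intro ha
      have k6 := (hφ.2 _ hz _).1 ha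
      have k7 := hχc.mfderiv_chartD (χ.map_source hmem)
        (mfderiv 𝓘(ℂ, E) 𝓘(ℂ, W × C) φ (Leaf.toM _ y) a : W × C).1
      have k8 : ∀ x x' : P278.Leaf (folCharts F W C), x = x' → ∀ a : W,
          (mfderiv 𝓘(ℂ, W) 𝓘(ℂ, W) χ x a : W) = mfderiv 𝓘(ℂ, W) 𝓘(ℂ, W) χ x' a := by
        rintro x _ rfl a; rfl
      refine ⟨chartD (E := W) χ (χ y)
        (mfderiv 𝓘(ℂ, E) 𝓘(ℂ, W × C) φ (Leaf.toM _ y) a : W × C).1, (k3 _).trans ?_⟩
      rw [(k8 _ _ (χ.left_inv hmem).symm _).trans k7, ← k6]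
      exact hφ.1.chartD_mfderiv hz a

set_option backward.isDefEq.respectTransparency false in
/-- Through every point there is a leaf. -/
theorem exists_leaf {X : Type} [TopologicalSpace X] [ChartedSpace E X] [T2Space X]
    {F : TangentDist E X} (hcov : ∀ x, ∃ φ ∈ folCharts F W C, x ∈ φ.source) (x : X) :
    ∃ (L : Type) (_ : TopologicalSpace L) (_ : ChartedSpace W L) (j : L → X),
      IsManifold 𝓘(ℂ, W) ω L ∧ ConnectedSpace L ∧ T2Space L ∧ Imm W F j ∧ x ∈ range j := by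
  have := anaFolAtlas hcov
  let x' : P278.Leaf (folCharts F W C) := (Leaf.toM _).symm x
  have ho : IsOpen (connectedComponent x') := isOpen_connectedComponent
  have hl : IsLocalHomeomorph (Subtype.val : connectedComponent x' → _) :=
    ho.isOpenEmbedding_subtypeVal.isLocalHomeomorph
  letI := pullCharted (H := W) hl
  have hm := pullManifold (I := 𝓘(ℂ, W)) (n := ω) hl
  have hd := pullLocalDiffeo (I := 𝓘(ℂ, W)) (n := ω) hl
  have hcomp : ∀ y : connectedComponent x',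
      mfderiv 𝓘(ℂ, W) 𝓘(ℂ, E) (Leaf.toM (folCharts F W C) ∘ Subtype.val) y =
        (mfderiv 𝓘(ℂ, W) 𝓘(ℂ, E) (Leaf.toM (folCharts F W C)) y.1).comp
          (mfderiv 𝓘(ℂ, W) 𝓘(ℂ, W) Subtype.val y) := fun y =>
    mfderiv_comp y ((toM_deriv y.1).1.mdifferentiableAt (by simp))
      (hd.mdifferentiable (by simp) y)
  refine ⟨connectedComponent x', inferInstance, inferInstance, Leaf.toM _ ∘ Subtype.val, hm,
    isConnected_iff_connectedSpace.1 isConnected_connectedComponent, inferInstance,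
    ⟨fun y => (toM_deriv y.1).1.comp y (hd.contMDiff y),
      (Leaf.toM _).injective.comp Subtype.val_injective, fun y => ?_, fun y => ?_, ?_⟩,
    ⟨x', mem_connectedComponent⟩, rfl⟩
  · rw [hcomp]
    exact (toM_deriv y.1).2.1.comp (bijective_mfderiv_of_isLocalDiffeomorph hd y).1
  · rw [hcomp]
    exact (LinearMap.range_comp_of_range_eq_top _ (LinearMap.range_eq_top.2
      (bijective_mfderiv_of_isLocalDiffeomorph hd y).2)).trans (toM_deriv y.1).2.2
  · rintro f hf hF ⟨y, hy⟩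
    have hc : ContinuousOn (fun z => (Leaf.toM (folCharts F W C)).symm (f z)) (ball 0 1) := by
      intro z hz
      obtain ⟨φ, hφ, k1⟩ := hcov (f z)
      have k2 := eventually_plaque (V := ℂ) (f := f) (y := z) (by
        filter_upwards [isOpen_ball.mem_nhds hz] with z' hz'
        refine ⟨(hf.contMDiffAt (isOpen_ball.mem_nhds hz')).mdifferentiableAt (by simp),
          fun v => ?_⟩
        have e : mfderiv 𝓘(ℂ, ℂ) 𝓘(ℂ, E) f z' v =
            (show ℂ from v) • mfderiv 𝓘(ℂ, ℂ) 𝓘(ℂ, E) f z' (1 : ℂ) := by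
          rw [← map_smul]
          exact congrArg _ (mul_one (show ℂ from v)).symm
        rw [e]
        exact Submodule.smul_mem _ _ (hF z' hz')) hφ k1
      have k3 : ContinuousAt (fun z => (φ (f z)).1) z :=
        continuousAt_fst.comp (ContinuousAt.comp (g := φ) (φ.continuousAt k1)
          (hf.continuousOn.continuousAt (isOpen_ball.mem_nhds hz)))
      have k4 : (φ (f z)).1 ∈ (Leaf.plaque φ hφ (φ (f z)).2).target := φ.map_source k1
      have k5 := ContinuousAt.comp (f := fun z => (φ (f z)).1)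
        ((Leaf.plaque φ hφ (φ (f z)).2).continuousAt_symm k4) k3
      refine (k5.congr ?_).continuousWithinAt
      filter_upwards [k2] with z' hz'
      show (Leaf.toM _).symm (φ.symm ((φ (f z')).1, (φ (f z)).2)) = _
      rw [← hz'.2]
      exact congrArg _ (φ.left_inv hz'.1)
    have h0 : (Leaf.toM (folCharts F W C)).symm (f 0) ∈ connectedComponent x' := by
      rw [← hy]; exact y.2
    have hs := ((convex_ball (0 : ℂ) 1).isPreconnected.image _ hc).subset_connectedComponent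
      ⟨0, mem_ball_self one_pos, rfl⟩
    rw [← connectedComponent_eq h0] at hs
    rintro _ ⟨z, hz, rfl⟩
    exact ⟨⟨_, hs ⟨z, hz, rfl⟩⟩, rfl⟩

end Vale.Agent.N278X
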