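import Vale.Agent.N278X.Tame

/-!
# P278: the product theorem on a leaf, two summands
-/

set_option linter.all false

open Set Topology Filter Metric Module Complex
open scoped ContDiff Manifold ComplexConjugate

namespace Vale.Agent.N278X

open Vale.Agent.P278 Vale.Agent.P278.Full

universe u

variable {E : Type*} [NormedAddCommGroup E] [NormedSpace ℂ E]
  {X : Type*} [TopologicalSpace X] [ChartedSpace E X]
  {E' : Type*} [NormedAddCommGroup E'] [NormedSpace ℂ E']

/-- A two-form which is positive and closed along `F`. -/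
structure FTame (w : X → E → E → ℝ) (F : TangentDist E X) : Prop where
  alt : Alt2 w
  pos : ∀ x, ∀ v ∈ F x, v ≠ 0 → 0 < w x v (I • v)
  smooth : ∀ φ ∈ IsManifold.maximalAtlas 𝓘(ℂ, E) ω X, ∀ u v,
    ContDiffOn ℝ 1 (fun p => T.locW E w φ p u v) φ.target
  closed : ∀ φ ∈ IsManifold.maximalAtlas 𝓘(ℂ, E) ω X, ∀ p ∈ φ.target, ∀ u v t,
    u ∈ localDist F φ p → v ∈ localDist F φ p → t ∈ localDist F φ p →
    T.dForm (T.locW E w φ) p u v t = 0

variable {w : X → E → E → ℝ} {F F₁ F₂ : TangentDist E X} [IsManifold 𝓘(ℂ, E) ω X]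

/-- The form in charts with values in an arbitrary model. -/
lemma FTame.chart (h : FTame w F) {φ : OpenPartialHomeomorph X E'}
    (hφ : IsHolChart (E := E) φ) (L : E' ≃L[ℂ] E) :
    (∀ u v, ContDiffOn ℝ 1 (fun p => T.locW E w φ p u v) φ.target) ∧
    ∀ p ∈ φ.target, ∀ u v t, u ∈ localDist F φ p → v ∈ localDist F φ p → t ∈ localDist F φ p →
      T.dForm (T.locW E w φ) p u v t = 0 := by
  have hm := chartE_mem hφ L
  have hc := isHolChart_of_mem hm
  have hsymm : ∀ p ∈ φ.target, φ.symm p ∈ (chartE φ L).source := fun p hp => by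
    rw [chartE_source]; exact φ.map_target hp
  have hval : ∀ p ∈ φ.target, chartE φ L (φ.symm p) = L p := fun p hp => by
    change L (φ (φ.symm p)) = L p
    rw [φ.right_inv hp]
  have hΩ : ∀ p ∈ φ.target, L p ∈ (chartE φ L).target := fun p hp => by
    rw [← hval p hp]; exact (chartE φ L).map_source (hsymm p hp)
  have hder : ∀ p ∈ φ.target, ∀ u, fderiv ℂ (chartE φ L ∘ φ.symm) p u = L u := fun p hp u => by
    have h1 : (chartE φ L ∘ φ.symm) =ᶠ[𝓝 p] L := by
      filter_upwards [φ.open_target.mem_nhds hp] with q hq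
      exact hval q hq
    rw [h1.fderiv_eq, L.fderiv]; rfl
  have heq : ∀ p ∈ φ.target, ∀ u v, T.locW E w φ p u v =
      T.locW E w (chartE φ L) (L p) (L u) (L v) := fun p hp u v => by
    rw [T.locW_trans w hφ hc hp (hsymm p hp), hder p hp, hder p hp, hval p hp]
  refine ⟨fun u v => ((h.smooth _ hm (L u) (L v)).comp
    ((L.contDiff.restrict_scalars ℝ).contDiffOn) hΩ).congr fun p hp => heq p hp u v,
    fun p hp u v t hu hv ht => ?_⟩
  have h3 := T.dForm_pullback (W₁ := T.locW E w φ) (W₂ := T.locW E w (chartE φ L)) L (p := p)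
    (by filter_upwards [φ.open_target.mem_nhds hp] with q hq using heq q hq) fun u v =>
      ((h.smooth _ hm u v).contDiffAt
        ((chartE φ L).open_target.mem_nhds (hΩ p hp))).differentiableAt (by norm_num)
  rw [h3]
  rw [localDist_trans F hφ hc hp (hsymm p hp), hder p hp, hval p hp] at hu hv ht
  exact h.closed _ hm _ (hΩ p hp) _ _ _ hu hv ht

lemma dForm_slice {W C : Type*} [NormedAddCommGroup W] [NormedSpace ℂ W] [NormedAddCommGroup C]
    [NormedSpace ℂ C] {W₁ : W → W → W → ℝ} {W₂ : W × C → W × C → W × C → ℝ} {p : W} {c : C}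
    (heq : ∀ᶠ q in 𝓝 p, ∀ u v, W₁ q u v = W₂ (q, c) (u, 0) (v, 0))
    (hd : ∀ u v, DifferentiableAt ℝ (fun q => W₂ q u v) (p, c)) (u v t : W) :
    T.dForm W₁ p u v t = T.dForm W₂ (p, c) (u, 0) (v, 0) (t, 0) := by
  have h1 : ∀ u v x, fderiv ℝ (fun q => W₁ q u v) p x =
      fderiv ℝ (fun q => W₂ q (u, 0) (v, 0)) (p, c) (x, 0) := by
    intro u v x
    have e : (fun q => W₁ q u v) =ᶠ[𝓝 p] (fun q => W₂ q (u, 0) (v, 0)) ∘ fun q => (q, c) :=
      heq.mono fun q hq => hq u v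
    rw [e.fderiv_eq, ((hd _ _).hasFDerivAt.comp (f := fun q : W => (q, c)) p
      (hasFDerivAt_prodMk_left p c)).fderiv]
    rfl
  unfold T.dForm
  rw [h1, h1, h1]

variable {V : Type*} [NormedAddCommGroup V] [NormedSpace ℂ V]
  {L : Type*} [TopologicalSpace L] [ChartedSpace V L] [IsManifold 𝓘(ℂ, V) ω L]
  {A B C : Type*} [NormedAddCommGroup A] [NormedSpace ℂ A] [NormedAddCommGroup B]
  [NormedSpace ℂ B] [NormedAddCommGroup C] [NormedSpace ℂ C] {j : L → X}

/-- The pull back of a family of subspaces. -/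
noncomputable def pb (V : Type*) [NormedAddCommGroup V] [NormedSpace ℂ V] [ChartedSpace V L]
    (j : L → X) (F : TangentDist E X) : TangentDist V L := fun y =>
  (F (j y)).comap (mfderiv 𝓘(ℂ, V) 𝓘(ℂ, E) j y).toLinearMap

/-- The pull back of a form. -/
noncomputable def pbW (V : Type*) [NormedAddCommGroup V] [NormedSpace ℂ V] [ChartedSpace V L]
    (j : L → X) (w : X → E → E → ℝ) : L → V → V → ℝ := fun y u v =>
  w (j y) (mfderiv 𝓘(ℂ, V) 𝓘(ℂ, E) j y u) (mfderiv 𝓘(ℂ, V) 𝓘(ℂ, E) j y v)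

/-- The charts of the leaf given by plaques. -/
def slices (V : Type*) [NormedAddCommGroup V] [NormedSpace ℂ V] [ChartedSpace V L] (j : L → X)
    (𝒯 : Set (OpenPartialHomeomorph X ((A × B) × C))) : Set (OpenPartialHomeomorph L (A × B)) :=
  {χ | IsHolChart (E := V) χ ∧ ∃ φ ∈ 𝒯, ∃ c, ∀ z ∈ χ.source, j z ∈ φ.source ∧ φ (j z) = (χ z, c)}

set_option backward.isDefEq.respectTransparency false in
theorem slices_sub (hj : Imm V F j) :
    slices V j (triCharts F F₁ F₂ A B C) ⊆ prodCharts (pb V j F₁) (pb V j F₂) A B := by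
  rintro χ ⟨hχ, φ, hφ, c, hc⟩
  refine ⟨hχ.toFun, hχ.invFun, fun z hz v => ?_⟩
  have e : χ =ᶠ[𝓝 z] fun z => (φ (j z)).1 := by
    filter_upwards [χ.open_source.mem_nhds hz] with z' hz'
    rw [(hc z' hz').2]
  have k1 := (hj.fst_deriv hφ.1 (hc z hz).1).2 v
  have k2 := hφ.2 _ (hc z hz).1 _ (hj.mem z v)
  rw [k1] at k2
  rw [e.mfderiv_eq]
  exact k2

theorem locW_slice (hj : Imm V F j) {φ : OpenPartialHomeomorph X ((A × B) × C)}
    (hφ : IsHolChart (E := E) φ) {χ : OpenPartialHomeomorph L (A × B)}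
    (hχ : IsHolChart (E := V) χ) {c : C}
    (hc : ∀ z ∈ χ.source, j z ∈ φ.source ∧ φ (j z) = (χ z, c)) {p : A × B} (hp : p ∈ χ.target)
    (u v : A × B) :
    T.locW V (pbW V j w) χ p u v = T.locW E w φ (p, c) (u, 0) (v, 0) := by
  obtain ⟨-, k2, k3⟩ := hj.slice_symm hφ hχ hc hp
  unfold T.locW pbW
  rw [k3, k3]
  exact congrArg (fun y => w y _ _) k2

theorem mem_localDist {W : Type*} [NormedAddCommGroup W] [NormedSpace ℂ W]
    {φ : OpenPartialHomeomorph X (W × C)} (hφ : φ ∈ folCharts F W C) {q : W × C}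
    (hq : q ∈ φ.target) (u : W) : ((u, 0) : W × C) ∈ localDist F φ q :=
  (hφ.2 _ (φ.map_target hq) _).2 (congrArg Prod.snd (hφ.1.mfderiv_chartD hq (u, 0)))

variable [FiniteDimensional ℂ V] [FiniteDimensional ℂ A] [FiniteDimensional ℂ B]
  [FiniteDimensional ℂ C]

theorem kAtlas_slices [Nonempty L] (hw : FTame w F) (hj : Imm V F j) {K : Set X}
    (hK : IsCompact K) (hjK : range j ⊆ K) (hdim : finrank ℂ V = finrank ℂ (A × B))
    (l : ((A × B) × C) ≃L[ℂ] E) (hcov : ∀ x, ∃ φ ∈ triCharts F F₁ F₂ A B C, x ∈ φ.source) :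
    ∃ H, T.KAtlas (slices V j (triCharts F F₁ F₂ A B C)) H := by
  have _ : ProperSpace ((A × B) × C) := FiniteDimensional.proper ℂ _
  have ha : Alt2 (pbW V j w) := hw.alt.comp j fun y => mfderiv 𝓘(ℂ, V) 𝓘(ℂ, E) j y
  have hpos : ∀ φ ∈ triCharts F F₁ F₂ A B C, ∀ q ∈ φ.target, ∀ v : A × B, v ≠ 0 →
      0 < T.locW E w φ q (v, 0) (I • v, 0) := by
    intro φ hφ q hq v hv
    have k1 := hw.pos _ _ (mem_localDist hφ.1 hq v) fun h0 => by
      have k2 := hφ.1.1.mfderiv_chartD hq (v, 0)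
      have h0' : chartD (E := E) φ q (v, 0) = 0 := h0
      rw [h0', map_zero] at k2
      exact hv (congrArg Prod.fst k2).symm
    have e : ((I • v, 0) : (A × B) × C) = I • (v, 0) := by simp
    unfold T.locW
    rw [e, map_smul]
    exact k1
  refine ⟨_, kAtlas_of_box ha (slices_sub hj) ?_ ?_ ?_ ?_⟩
  · rintro χ ⟨hχ, φ, hφ, c, hc⟩ p hp v hv
    rw [locW_slice hj hφ.1.1 hχ hc hp]
    exact hpos φ hφ _ (hj.slice_symm hφ.1.1 hχ hc hp).1 v hv
  · rintro χ ⟨hχ, φ, hφ, c, hc⟩ u v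
    refine (((hw.chart hφ.1.1 l).1 (u, 0) (v, 0)).comp (contDiff_prodMk_left c).contDiffOn
      fun p hp => (hj.slice_symm hφ.1.1 hχ hc hp).1).congr fun p hp => ?_
    exact locW_slice hj hφ.1.1 hχ hc hp u v
  · rintro χ ⟨hχ, φ, hφ, c, hc⟩ p hp u v t
    have k1 := (hj.slice_symm hφ.1.1 hχ hc hp).1
    rw [dForm_slice (W₂ := T.locW E w φ) (c := c) (by
      filter_upwards [χ.open_target.mem_nhds hp] with q hq using
        locW_slice hj hφ.1.1 hχ hc hq) fun u v => (((hw.chart hφ.1.1 l).1 u v).contDiffAt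
          (φ.open_target.mem_nhds k1)).differentiableAt (by norm_num)]
    exact (hw.chart hφ.1.1 l).2 _ k1 _ _ _ (mem_localDist hφ.1 k1 u) (mem_localDist hφ.1 k1 v)
      (mem_localDist hφ.1 k1 t)
  · obtain ⟨δ, hδ, c, hc, D, hD, hb⟩ := exists_box (U := A × B)
      (b := fun φ q u v => T.locW E w φ q (u, 0) (v, 0)) hcov
      (fun φ => (hw.alt.loc φ).comp id fun _ => ContinuousLinearMap.inl ℂ (A × B) C)
      (fun φ hφ u v => ((hw.chart hφ.1.1 l).1 (u, 0) (v, 0)).continuousOn) hpos hK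
    refine ⟨δ / 2, half_pos hδ, c, hc, D, hD, fun y => ?_⟩
    obtain ⟨φ, hφ, k1, k2, k3⟩ := hb _ (hjK ⟨y, rfl⟩)
    obtain ⟨χ, hχ, l1, l2⟩ := hj.exists_slice hdim hφ.1 (φ (j y)).2
    have hc' : ∀ z ∈ χ.source, j z ∈ φ.source ∧ φ (j z) = (χ z, (φ (j y)).2) := by
      intro z hz
      rw [l1] at hz
      exact ⟨hz.1, Prod.ext (l2 z).symm hz.2⟩
    have hy : y ∈ χ.source := by rw [l1]; exact ⟨k1, rfl⟩
    have ht : closedBall (χ y) (δ / 2) ⊆ χ.target := by
      intro a ha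
      rw [l2] at ha
      obtain ⟨z, m1, m2⟩ := hj.plaque_sub hφ.1 k1 (ball_subset_closedBall.trans k2)
        (closedBall_subset_ball (half_lt_self hδ) ha)
      have m5 := congrArg Prod.snd m2
      have m3 : z ∈ χ.source := by rw [l1]; exact ⟨m1, m5⟩
      have m4 : χ z = a := (l2 z).trans (congrArg Prod.fst m2)
      rw [← m4]
      exact χ.map_source m3
    refine ⟨χ, ⟨hχ, φ, hφ, _, hc'⟩, hy, ht, fun p hp => ?_⟩
    have hq : (p, (φ (j y)).2) ∈ closedBall (φ (j y)) δ := by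
      rw [l2] at hp
      rw [mem_closedBall, Prod.dist_eq, dist_self]
      exact max_le ((mem_closedBall.1 hp).trans (half_le_self hδ.le)) hδ.le
    simp only [locW_slice hj hφ.1.1 hχ hc' (ht hp)]
    exact k3 _ hq

end Vale.Agent.N278X
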