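import Vale.Agent.N278X.Defs
import Vale.Agent.N278X.Pair
import Vale.Agent.N278X.Exist

/-!
# P278: Beauville's splitting theorem for leaves
-/

set_option linter.all false

open Set Topology Filter Metric Module Complex
open scoped ContDiff Manifold ComplexConjugate

namespace Vale.Agent.N278X

open Vale.Agent.P278 Vale.Agent.P278.Full

universe u

lemma comap_iSup_of_le {U U' : Type*} [AddCommGroup U] [Module ℂ U] [AddCommGroup U'] [Module ℂ U']
    {f : U →ₗ[ℂ] U'} (hf : Function.Injective f) {ι : Sort*} {S : ι → Submodule ℂ U'}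
    (h : ∀ i, S i ≤ f.range) : (⨆ i, S i).comap f = ⨆ i, (S i).comap f := by
  apply Submodule.map_injective_of_injective hf
  rw [Submodule.map_iSup, Submodule.map_comap_eq_self (iSup_le h)]
  exact iSup_congr fun i => (Submodule.map_comap_eq_self (h i)).symm

variable {E : Type*} [NormedAddCommGroup E] [NormedSpace ℂ E]
  {X : Type*} [TopologicalSpace X] [ChartedSpace E X]

theorem Tames.fTame {s : TwoForm E X} {F : Plane E X} (h : Tames s F) :
    FTame (E := E) (fun x a b => s x ![a, b]) F where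
  alt := ⟨fun x u v v' => N278T.two_add (V := E) (s x) u v v',
    fun x u v c => N278T.two_smul (V := E) (s x) u v c, fun x u v => N278T.two_alt (V := E) (s x) u v⟩
  pos := h.1
  smooth φ hφ u v := by
    simp only [← N278T.inChart_apply]
    exact (ContinuousAlternatingMap.apply ℝ E ℝ ![u, v]).contDiff.comp_contDiffOn
      ((h.2 φ hφ).1.of_le (by norm_cast))
  closed φ hφ p hp u v t hu hv ht := by
    have hd : DifferentiableAt ℝ (inChart s φ) p :=
      ((h.2 φ hφ).1.contDiffAt (φ.open_target.mem_nhds hp)).differentiableAt (by norm_num)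
    have e : T.locW E (fun x a b => s x ![a, b]) φ = fun q a b => inChart s φ q ![a, b] := by
      funext q a b; exact (N278T.inChart_apply s φ q a b).symm
    rw [e, ← N278T.extDeriv_three hd]
    refine (h.2 φ hφ).2 p hp _ fun i => ?_
    fin_cases i
    exacts [hu, hv, ht]

variable [FiniteDimensional ℂ E] [IsManifold 𝓘(ℂ, E) ω X]
  {V : Type*} [NormedAddCommGroup V] [NormedSpace ℂ V]
  {L : Type*} [TopologicalSpace L] [ChartedSpace V L] {j : L → X}
  {M : Type u} [TopologicalSpace M] [ChartedSpace V M]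

omit [IsManifold 𝓘(ℂ, E) ω X] in
theorem Imm.finrank_eq {F : TangentDist E X} (hj : Imm V F j) (y : L) :
    FiniteDimensional ℂ V ∧ finrank ℂ V = finrank ℂ (F (j y)) := by
  have : FiniteDimensional ℂ (TangentSpace 𝓘(ℂ, E) (j y)) := inferInstanceAs (FiniteDimensional ℂ E)
  refine ⟨FiniteDimensional.of_injective (mfderiv 𝓘(ℂ, V) 𝓘(ℂ, E) j y).toLinearMap (hj.dinj y), ?_⟩
  rw [← hj.ran y]
  exact (LinearMap.finrank_range_of_inj (f := (mfderiv 𝓘(ℂ, V) 𝓘(ℂ, E) j y).toLinearMap)
    (hj.dinj y)).symm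

theorem isProductPair_leaf [T2Space X] [ConnectedSpace X] [IsManifold 𝓘(ℂ, V) ω L]
    [ConnectedSpace L] [IsManifold 𝓘(ℂ, V) ω M] [SimplyConnectedSpace M]
    {w : X → E → E → ℝ} {F F₁ F₂ : TangentDist E X} (hw : FTame w F) (hj : Imm V F j)
    {K : Set X} (hK : IsCompact K) (hjK : range j ⊆ K) {π : M → L} (hπ : IsCoveringMap π)
    (hπl : IsLocalDiffeomorph 𝓘(ℂ, V) 𝓘(ℂ, V) ω π) (h : Stmt.IsFoliation F)
    (h₁ : Stmt.IsFoliation F₁) (h₂ : Stmt.IsFoliation F₂) (hd : ∀ x, Disjoint (F₁ x) (F₂ x))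
    (hs : ∀ x, F₁ x ⊔ F₂ x = F x) :
    IsProductPair (pullDist π (pb V j F₁)) (pullDist π (pb V j F₂)) := by
  obtain ⟨y₀⟩ : Nonempty L := inferInstance
  obtain ⟨hV, hdim⟩ := hj.finrank_eq y₀
  have : FiniteDimensional ℂ (TangentSpace 𝓘(ℂ, E) (j y₀)) :=
    inferInstanceAs (FiniteDimensional ℂ E)
  have hsum : finrank ℂ (F₁ (j y₀)) + finrank ℂ (F₂ (j y₀)) = finrank ℂ (F (j y₀)) := by
    rw [← hs, ← Submodule.finrank_sup_add_finrank_inf_eq, (hd _).eq_bot, finrank_bot, add_zero]
  have hle : finrank ℂ (F (j y₀)) ≤ finrank ℂ E := Submodule.finrank_le (F (j y₀))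
  let A := EuclideanSpace ℂ (Fin (finrank ℂ (F₁ (j y₀))))
  let B := EuclideanSpace ℂ (Fin (finrank ℂ (F₂ (j y₀))))
  let C := EuclideanSpace ℂ (Fin (finrank ℂ E - finrank ℂ (F (j y₀))))
  have hA : finrank ℂ A = finrank ℂ (F₁ (j y₀)) := by simp [A]
  have hB : finrank ℂ B = finrank ℂ (F₂ (j y₀)) := by simp [B]
  have hC : finrank ℂ C = finrank ℂ E - finrank ℂ (F (j y₀)) := by simp [C]
  have s := isHolSubbundle_of_foliation h
  have s₁ := isHolSubbundle_of_foliation h₁
  have s₂ := isHolSubbundle_of_foliation h₂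
  have hcov : ∀ x, ∃ φ ∈ triCharts F F₁ F₂ A B C, x ∈ φ.source := fun x =>
    exists_mem_triCharts s (isIntegrable_of_foliation h) s₁ (isIntegrable_of_foliation h₁) s₂
      (isIntegrable_of_foliation h₂) hd hs x
      ((finrank_eq_of_preconnected s₁ x _).trans hA.symm)
      ((finrank_eq_of_preconnected s₂ x _).trans hB.symm)
      (by rw [hC, finrank_eq_of_preconnected s x (j y₀)]; omega)
  have hdim' : finrank ℂ V = finrank ℂ (A × B) := by rw [finrank_prod]; omega
  have : T2Space L := T2Space.of_injective_continuous hj.inj hj.hol.continuous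
  have : SecondCountableTopology L := hj.secondCountable hK hjK hdim' fun x => by
    obtain ⟨φ, hφ, hx⟩ := hcov x
    exact ⟨φ, hφ.1, hx⟩
  have : PathConnectedSpace M := inferInstance
  have : SecondCountableTopology M := secondCountable_of_isCoveringMap hπ
  obtain ⟨H, hH⟩ := kAtlas_slices hw hj hK hjK hdim'
    (ContinuousLinearEquiv.ofFinrankEq (by rw [finrank_prod, finrank_prod]; omega)) hcov
  exact isProductPair_of_crossExt hπ hπl (prodCharts_of_sub (slices_sub hj) hH.cover)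
    (T.crossExt_of_kAtlas hH)

theorem foliation_sum {k : ℕ} {F : Fin k → Plane E X} (hF : ∀ i, Subbundle (F i))
    (hI : ∀ S : Set (Fin k), Involutive (⨆ i ∈ S, F i)) (hc : ∀ x, iSupIndep fun i => F i x)
    (S : Set (Fin k)) : Stmt.IsFoliation fun x => ⨆ i ∈ S, F i x where
  frame := by
    intro x₀
    obtain ⟨U, hU, r, s, hs, hsp⟩ := isSubbundle_sum hF hc S x₀
    exact ⟨U, hU, r, s, fun j => (hs j).1, hsp⟩
  bracket := by
    intro U V W hU hV hW h x hx
    have e : (⨆ i ∈ S, F i) = fun x => ⨆ i ∈ S, F i x := by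
      funext x
      simp only [iSup_apply]
    have h1 := hI S
    rw [e] at h1
    exact h1 U V W hU ⟨hV, fun y hy => (h y hy).1⟩ ⟨hW, fun y hy => (h y hy).2⟩ x hx

theorem foliation_top {k : ℕ} {F : Fin k → Plane E X}
    (hi : ∀ S : Set (Fin k), Stmt.IsFoliation fun x => ⨆ i ∈ S, F i x) :
    Stmt.IsFoliation (⨆ i, F i) := by
  have h := hi univ
  have e : (fun x => ⨆ j ∈ (univ : Set (Fin k)), F j x) = ⨆ i, F i := by
    funext x; simp only [mem_univ, iSup_pos, iSup_apply]
  rwa [e] at h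

omit [FiniteDimensional ℂ E] [IsManifold 𝓘(ℂ, E) ω X] in
theorem Leaf.imm {F : Plane E X} (h : Leaf V F j) : Imm V F j :=
  ⟨h.2.2.1, h.2.2.2.1, fun y => (h.2.2.2.2.1 y).1, fun y => (h.2.2.2.2.1 y).2, h.2.2.2.2.2⟩

set_option backward.isDefEq.respectTransparency false in
/-- **Splitting theorem for leaves.** -/
theorem leaf_product [T2Space X] [ConnectedSpace X] {k : ℕ} {F : Fin k → Plane E X}
    (hF : ∀ i, Subbundle (F i)) (hI : ∀ S : Set (Fin k), Involutive (⨆ i ∈ S, F i))
    (hc : ∀ x, iSupIndep fun i => F i x) {s : TwoForm E X} (hs : Tames s (⨆ i, F i))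
    (hL : Leaf V (⨆ i, F i) j) {K : Set X} (hK : IsCompact K) (hjK : range j ⊆ K) {π : M → L}
    (hπ : UnivCover V π) : Product V F (j ∘ π) := by
  obtain ⟨c, -, hM, hM', l⟩ := hπ
  have := hL.1
  have := hL.2.1
  have hj := hL.imm
  obtain ⟨y₀⟩ : Nonempty L := inferInstance
  have hV := (hj.finrank_eq y₀).1
  have hi := foliation_sum hF hI hc
  have h0 : (ω : WithTop ℕ∞) ≠ 0 := by simp
  have hle : ∀ i y, F i (j y) ≤ (mfderiv 𝓘(ℂ, V) 𝓘(ℂ, E) j y).range := fun i y => by
    rw [hj.ran, iSup_apply]; exact le_iSup (fun i => F i (j y)) i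
  have htop : ∀ m, ⨆ i, pullDist π (pb V j (F i)) m = ⊤ := by
    intro m
    rw [← pullDist_iSup l (fun i => pb V j (F i)) m]
    have e : (⨆ i, pb V j (F i) (π m)) = ⊤ := by
      refine (comap_iSup_of_le (hj.dinj _) fun i => hle i (π m)).symm.trans ?_
      rw [← iSup_apply, ← hj.ran]
      exact Submodule.comap_map_eq_of_injective (hj.dinj _) ⊤ ▸ by rw [Submodule.map_top]
    show (⨆ i, pb V j (F i) (π m)).comap _ = ⊤
    rw [e, Submodule.comap_top]
  have : PathConnectedSpace M := inferInstance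
  obtain ⟨A, i1, i2, Y, i3, i4, Φ, hY, ⟨hb, hΦ⟩, hk⟩ := inducesProductF_of_pairs
    (G := fun i => pullDist π (pb V j (F i))) htop fun i => by
      have e : (fun x => ⨆ l, ⨆ _ : l ≠ i, pullDist π (pb V j (F l)) x) =
          pullDist π (pb V j fun x => ⨆ l ≠ i, F l x) := by
        have e' : (pb V j fun x => ⨆ l ≠ i, F l x) = fun y => ⨆ l ≠ i, pb V j (F l) y := by
          funext y
          refine (comap_iSup_of_le (hj.dinj _) fun l => iSup_le fun _ => hle l y).trans ?_
          exact iSup_congr fun l => comap_iSup_of_le (hj.dinj _) fun _ => hle l y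
        funext x
        rw [e', pullDist_iSup l (fun a y => ⨆ _ : a ≠ i, pb V j (F a) y) x]
        congr 1
        funext a
        rw [pullDist_iSup l (fun _ : a ≠ i => pb V j (F a)) x]
      rw [e]
      refine isProductPair_leaf hs.fTame hj hK hjK c l (foliation_top hi) (foliation_single hi i)
        (foliation_compl hi i) (fun x => hc x i) fun x => ?_
      rw [iSup_apply]
      exact (iSup_split_single (fun i => F i x) i).symm
  refine ⟨A, i1, i2, Y, i3, i4,
    fun i => ⟨(hY i).fd, (hY i).mfd, (hY i).t2, (hY i).sc, (hY i).simply⟩,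
    hΦ.diffeomorphOfBijective hb, fun i m a => ?_⟩
  have hd := (hΦ.mdifferentiable h0) m
  have hm : ∀ v, mfderiv 𝓘(ℂ, V) 𝓘(ℂ, E) (j ∘ π) m v ∈ F i ((j ∘ π) m) ↔ ∀ l, l ≠ i →
      (mfderiv 𝓘(ℂ, V) (ModelWithCorners.pi fun i => 𝓘(ℂ, A i)) Φ m v : ∀ i, A i) l = 0 := by
    intro v
    have hk' : pullDist π (pb V j (F i)) m = _ := hk i m
    have e : mfderiv 𝓘(ℂ, V) 𝓘(ℂ, E) (j ∘ π) m v ∈ F i ((j ∘ π) m) ↔
        v ∈ pullDist π (pb V j (F i)) m := by
      rw [mfderiv_comp m (hj.mdiff _) (l.mdifferentiable h0 m)]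
      exact Iff.rfl
    rw [e, hk']
    simp only [Submodule.mem_iInf, StmtF.kerD, LinearMap.mem_ker]
    refine forall₂_congr fun l _ => ?_
    rw [mfderiv_pi_apply hd v l]
    rfl
  constructor
  · rintro ⟨v, hv, rfl⟩
    exact (hm v).1 hv
  · intro ha
    obtain ⟨v, hv⟩ := (hΦ.mfderivToContinuousLinearEquiv h0 m).surjective a
    have hv' : mfderiv 𝓘(ℂ, V) (ModelWithCorners.pi fun i => 𝓘(ℂ, A i)) Φ m v = a := hv
    exact ⟨v, (hm v).2 fun l hl => by rw [hv']; exact ha l hl, hv'⟩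

omit [FiniteDimensional ℂ E] in
theorem leaf_id [ConnectedSpace X] : Leaf E (⊤ : Plane E X) (id : X → X) := by
  refine ⟨inferInstance, inferInstance, contMDiff_id, Function.injective_id, fun y => ?_,
    fun f _ _ _ => by rw [range_id]; exact subset_univ _⟩
  rw [mfderiv_id]
  exact ⟨Function.injective_id, LinearMap.range_id⟩

/-- **Beauville's conjecture**, as a special case. -/
theorem total_product [T2Space X] [ConnectedSpace X] [CompactSpace X] {k : ℕ}
    {F : Fin k → Plane E X} (hF : ∀ i, Subbundle (F i))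
    (hI : ∀ S : Set (Fin k), Involutive (⨆ i ∈ S, F i)) (hc : ∀ x, iSupIndep fun i => F i x)
    {s : TwoForm E X} (hs : Kahler s) (e : ⨆ i, F i = ⊤) {M : Type u} [TopologicalSpace M]
    [ChartedSpace E M] {π : M → X} (hπ : UnivCover E π) : Product E F π :=
  leaf_product (j := id) hF hI hc (by rw [e]; exact hs.1) (by rw [e]; exact leaf_id)
    isCompact_univ (subset_univ _) hπ

theorem exists_univCover (E : Type) [NormedAddCommGroup E] [NormedSpace ℂ E] (X : Type)
    [TopologicalSpace X] [T2Space X] [ConnectedSpace X] [ChartedSpace E X]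
    [IsManifold 𝓘(ℂ, E) ω X] :
    ∃ (M : Type) (_ : TopologicalSpace M) (_ : ChartedSpace E M) (π : M → X), UnivCover E π := by
  obtain ⟨M, t, c, π, h, l⟩ := N278T.exists_cover_lift E X
  exact ⟨M, t, c, π, h.cov, h.surj, h.simply, l.mfd, l.loc⟩

theorem exists_leaf_cover {X : Type} [TopologicalSpace X] [ChartedSpace E X] [T2Space X]
    [ConnectedSpace X] [IsManifold 𝓘(ℂ, E) ω X] {k : ℕ} {F : Fin k → Plane E X}
    (hF : ∀ i, Subbundle (F i)) (hI : ∀ S : Set (Fin k), Involutive (⨆ i ∈ S, F i))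
    (hc : ∀ x, iSupIndep fun i => F i x) (x : X) :
    ∃ (V : Type) (_ : NormedAddCommGroup V) (_ : NormedSpace ℂ V) (L M : Type)
      (_ : TopologicalSpace L) (_ : ChartedSpace V L) (_ : TopologicalSpace M)
      (_ : ChartedSpace V M) (j : L → X) (π : M → L),
      Leaf V (⨆ i, F i) j ∧ x ∈ range j ∧ UnivCover V π := by
  have h := foliation_top (foliation_sum hF hI hc)
  have s := isHolSubbundle_of_foliation h
  have : FiniteDimensional ℂ (TangentSpace 𝓘(ℂ, E) x) := inferInstanceAs (FiniteDimensional ℂ E)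
  have hle : finrank ℂ ((⨆ i, F i) x) ≤ finrank ℂ E := Submodule.finrank_le ((⨆ i, F i) x)
  let W := EuclideanSpace ℂ (Fin (finrank ℂ ((⨆ i, F i) x)))
  let C := EuclideanSpace ℂ (Fin (finrank ℂ E - finrank ℂ ((⨆ i, F i) x)))
  have hW : finrank ℂ W = finrank ℂ ((⨆ i, F i) x) := by simp [W]
  have hC : finrank ℂ C = finrank ℂ E - finrank ℂ ((⨆ i, F i) x) := by simp [C]
  obtain ⟨L, t, c, j, h1, h2, h3, h4, h5⟩ := exists_leaf (W := W) (C := C) (fun x' =>
    exists_mem_folCharts s (isIntegrable_of_foliation h) x'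
      ((finrank_eq_of_preconnected s x' _).trans hW.symm)
      (by rw [hC, finrank_eq_of_preconnected s x' x]; omega)) x
  obtain ⟨M, t', c', π, h6⟩ := exists_univCover W L
  exact ⟨W, inferInstance, inferInstance, L, M, t, c, t', c', j, π,
    ⟨h1, h2, h4.hol, h4.inj, fun y => ⟨h4.dinj y, h4.ran y⟩, h4.max⟩, h5, h6⟩

end Vale.Agent.N278X
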