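import Vale.Agent.N278X.Chart

/-!
# P278: charts on a leaf
-/

set_option linter.all false

open Set Topology Filter Metric Module
open scoped ContDiff Manifold

namespace Vale.Agent.N278X

open Vale.Agent.P278 Vale.Agent.P278.Full

variable {E : Type*} [NormedAddCommGroup E] [NormedSpace ℂ E]
  {X : Type*} [TopologicalSpace X] [ChartedSpace E X]
  {V : Type*} [NormedAddCommGroup V] [NormedSpace ℂ V]
  {L : Type*} [TopologicalSpace L] [ChartedSpace V L]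
  {W C : Type*} [NormedAddCommGroup W] [NormedSpace ℂ W] [NormedAddCommGroup C] [NormedSpace ℂ C]

/-- A leaf. -/
structure Imm (V : Type*) [NormedAddCommGroup V] [NormedSpace ℂ V] [ChartedSpace V L]
    (F : TangentDist E X) (j : L → X) : Prop where
  hol : ContMDiff 𝓘(ℂ, V) 𝓘(ℂ, E) ω j
  inj : j.Injective
  dinj : ∀ y, Function.Injective (mfderiv 𝓘(ℂ, V) 𝓘(ℂ, E) j y)
  ran : ∀ y, (mfderiv 𝓘(ℂ, V) 𝓘(ℂ, E) j y).range = F (j y)
  max : ∀ f : ℂ → X, ContMDiffOn 𝓘(ℂ, ℂ) 𝓘(ℂ, E) ω f (ball 0 1) →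
    (∀ z ∈ ball 0 1, mfderiv 𝓘(ℂ, ℂ) 𝓘(ℂ, E) f z (1 : ℂ) ∈ F (f z)) →
    f 0 ∈ range j → f '' ball 0 1 ⊆ range j

variable {F : TangentDist E X} {j : L → X}

theorem Imm.mem (h : Imm V F j) (y : L) (v : TangentSpace 𝓘(ℂ, V) y) :
    mfderiv 𝓘(ℂ, V) 𝓘(ℂ, E) j y v ∈ F (j y) := by
  rw [← h.ran y]; exact ⟨v, rfl⟩

theorem Imm.mdiff (h : Imm V F j) (y : L) : MDifferentiableAt 𝓘(ℂ, V) 𝓘(ℂ, E) j y :=
  h.hol.mdifferentiable (by simp) y

theorem Imm.comp (h : Imm V F j) {W : Type*} [NormedAddCommGroup W] [NormedSpace ℂ W]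
    {φ : OpenPartialHomeomorph X W} (hφ : IsHolChart (E := E) φ)
    {y : L} (hy : j y ∈ φ.source) :
    ContMDiffAt 𝓘(ℂ, V) 𝓘(ℂ, W) ω (fun z => φ (j z)) y ∧ ∀ v,
      (mfderiv 𝓘(ℂ, V) 𝓘(ℂ, W) (fun z => φ (j z)) y v : W) =
        mfderiv 𝓘(ℂ, E) 𝓘(ℂ, W) φ (j y) (mfderiv 𝓘(ℂ, V) 𝓘(ℂ, E) j y v) :=
  ⟨(hφ.toFun.contMDiffAt (φ.open_source.mem_nhds hy)).comp y (h.hol y), fun v =>
    congrArg (fun T : V →L[ℂ] W => T v) (mfderiv_comp y (hφ.mdiffAt hy) (h.mdiff y))⟩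

variable [IsManifold 𝓘(ℂ, V) ω L]

theorem Imm.eventually_snd (h : Imm V F j) {φ : OpenPartialHomeomorph X (W × C)}
    (hφ : φ ∈ folCharts F W C) {y : L} (hy : j y ∈ φ.source) :
    ∀ᶠ z in 𝓝 y, j z ∈ φ.source ∧ (φ (j z)).2 = (φ (j y)).2 := by
  have h1 : ∀ᶠ z in 𝓝 y, j z ∈ φ.source :=
    h.hol.continuous.continuousAt.eventually_mem (φ.open_source.mem_nhds hy)
  refine h1.and (eventually_const (V := V) (f := fun z => (φ (j z)).2) ?_)
  filter_upwards [h1] with z hz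
  obtain ⟨k1, k2⟩ := h.comp hφ.1 hz
  have k3 := k1.mdifferentiableAt (by simp)
  refine ⟨(ContinuousLinearMap.snd ℂ W C).differentiableAt.mdifferentiableAt.comp z k3,
    fun v => ?_⟩
  refine (mfderiv_clm_comp (ContinuousLinearMap.snd ℂ W C) k3 v).trans ?_
  rw [k2]
  exact (hφ.2 _ hz _).1 (h.mem z v)

theorem Imm.isOpen_slice (h : Imm V F j) {φ : OpenPartialHomeomorph X (W × C)}
    (hφ : φ ∈ folCharts F W C) (c : C) : IsOpen {z | j z ∈ φ.source ∧ (φ (j z)).2 = c} := by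
  rw [isOpen_iff_mem_nhds]
  rintro z ⟨h1, h2⟩
  filter_upwards [h.eventually_snd hφ h1] with z' hz' using ⟨hz'.1, hz'.2.trans h2⟩

theorem Imm.fst_deriv (h : Imm V F j) {φ : OpenPartialHomeomorph X (W × C)}
    (hφ : φ ∈ folCharts F W C) {y : L} (hy : j y ∈ φ.source) :
    ContMDiffAt 𝓘(ℂ, V) 𝓘(ℂ, W) ω (fun z => (φ (j z)).1) y ∧ ∀ v,
      (mfderiv 𝓘(ℂ, E) 𝓘(ℂ, W × C) φ (j y) (mfderiv 𝓘(ℂ, V) 𝓘(ℂ, E) j y v) : W × C) =
        ((mfderiv 𝓘(ℂ, V) 𝓘(ℂ, W) (fun z => (φ (j z)).1) y v : W), (0 : C)) := by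
  obtain ⟨k1, k2⟩ := h.comp hφ.1 hy
  refine ⟨((ContinuousLinearMap.fst ℂ W C).contDiff.contMDiff.contMDiffAt).comp y k1,
    fun v => Prod.ext ?_ ((hφ.2 _ hy _).1 (h.mem y v))⟩
  refine Eq.trans ?_ (mfderiv_clm_comp (ContinuousLinearMap.fst ℂ W C)
    (k1.mdifferentiableAt (by simp)) v).symm
  rw [k2]
  rfl

variable [FiniteDimensional ℂ V] [FiniteDimensional ℂ W]

/-- The chart of the leaf given by a plaque. -/
theorem Imm.exists_slice [Nonempty L] (h : Imm V F j) (hdim : finrank ℂ V = finrank ℂ W)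
    {φ : OpenPartialHomeomorph X (W × C)} (hφ : φ ∈ folCharts F W C) (c : C) :
    ∃ χ : OpenPartialHomeomorph L W, IsHolChart (E := V) χ ∧
      χ.source = {z | j z ∈ φ.source ∧ (φ (j z)).2 = c} ∧ ∀ z, χ z = (φ (j z)).1 := by
  set S : Set L := {z | j z ∈ φ.source ∧ (φ (j z)).2 = c} with hS
  set g : L → W := fun z => (φ (j z)).1 with hg
  have hSo : IsOpen S := h.isOpen_slice hφ c
  have hinj : InjOn g S := by
    intro z hz z' hz' e
    exact h.inj (φ.injOn hz.1 hz'.1 (Prod.ext e (hz.2.trans hz'.2.symm)))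
  have hloc : ∀ z ∈ S, ∃ χ : OpenPartialHomeomorph L W, IsHolChart (E := V) χ ∧ z ∈ χ.source ∧
      χ.source ⊆ S ∧ ∀ z ∈ χ.source, χ z = g z := by
    intro z hz
    obtain ⟨k1, k2⟩ := h.fst_deriv hφ hz.1
    refine exists_holChart k1 (fun v hv => ?_) hdim (hSo.mem_nhds hz)
    have k3 := k2 v
    rw [hv] at k3
    exact (injective_iff_map_eq_zero _).1 (h.dinj z) v (holChart_inj hφ.1 hz.1 _ k3)
  set e := hinj.toPartialEquiv g S with he
  have hsymm : ∀ p ∈ g '' S, ∃ χ : OpenPartialHomeomorph L W, IsHolChart (E := V) χ ∧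
      p ∈ χ.target ∧ ∀ q ∈ χ.target, q ∈ g '' S ∧ e.symm q = χ.symm q := by
    rintro _ ⟨z, hz, rfl⟩
    obtain ⟨χ, k1, k2, k3, k4⟩ := hloc z hz
    refine ⟨χ, k1, by rw [← k4 z k2]; exact χ.map_source k2, fun q hq => ?_⟩
    have k5 := χ.map_target hq
    have k6 : g (χ.symm q) = q := (k4 _ k5).symm.trans (χ.right_inv hq)
    refine ⟨⟨_, k3 k5, k6⟩, ?_⟩
    conv_lhs => rw [← k6]
    exact e.left_inv (k3 k5)
  have hto : ContMDiffOn 𝓘(ℂ, V) 𝓘(ℂ, W) ω g S := fun z hz =>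
    (h.fst_deriv hφ hz.1).1.contMDiffWithinAt
  have hinv : ContMDiffOn 𝓘(ℂ, W) 𝓘(ℂ, V) ω e.symm (g '' S) := by
    intro p hp
    obtain ⟨χ, k1, k2, k3⟩ := hsymm p hp
    refine ((k1.invFun.contMDiffAt (χ.open_target.mem_nhds k2)).congr_of_eventuallyEq
      ?_).contMDiffWithinAt
    filter_upwards [χ.open_target.mem_nhds k2] with q hq using (k3 q hq).2
  have hTo : IsOpen (g '' S) := by
    rw [isOpen_iff_mem_nhds]
    intro p hp
    obtain ⟨χ, -, k2, k3⟩ := hsymm p hp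
    filter_upwards [χ.open_target.mem_nhds k2] with q hq using (k3 q hq).1
  exact ⟨{ toPartialEquiv := e
           open_source := hSo
           open_target := hTo
           continuousOn_toFun := hto.continuousOn
           continuousOn_invFun := hinv.continuousOn }, ⟨hto, hinv⟩, rfl, fun z => rfl⟩

omit [IsManifold 𝓘(ℂ, V) ω L] [FiniteDimensional ℂ V] [FiniteDimensional ℂ W] in
set_option backward.isDefEq.respectTransparency false in
/-- The leaf contains the plaques through its points. -/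
theorem Imm.plaque_sub (h : Imm V F j) {φ : OpenPartialHomeomorph X (W × C)}
    (hφ : φ ∈ folCharts F W C) {y : L} (hy : j y ∈ φ.source) {δ : ℝ}
    (hδ : ball (φ (j y)) δ ⊆ φ.target) {a : W} (ha : a ∈ ball (φ (j y)).1 δ) :
    ∃ z, j z ∈ φ.source ∧ φ (j z) = (a, (φ (j y)).2) := by
  set p₀ := φ (j y) with hp₀
  have h1 : ‖a - p₀.1‖ < δ := mem_ball_iff_norm.1 ha
  have hδ0 : 0 < δ := (norm_nonneg _).trans_lt h1
  obtain ⟨t, ht1, ht2⟩ := exists_between ((div_lt_one hδ0).2 h1)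
  have ht0 : 0 < t := (div_nonneg (norm_nonneg _) hδ0.le).trans_lt ht1
  set d : W × C := ((t : ℂ)⁻¹ • (a - p₀.1), 0) with hd
  have hdn : ‖d‖ < δ := by
    rw [hd, Prod.norm_mk, norm_zero, max_eq_left (norm_nonneg _), norm_smul, norm_inv,
      Complex.norm_real, Real.norm_of_nonneg ht0.le, inv_mul_lt_iff₀ ht0]
    exact (div_lt_iff₀ hδ0).1 ht1
  let ℓ : ℂ → W × C := fun z => p₀ + z • d
  have hℓ : ∀ z ∈ ball (0 : ℂ) 1, ℓ z ∈ φ.target := by
    intro z hz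
    apply hδ
    rw [mem_ball_iff_norm, show ℓ z - p₀ = z • d from add_sub_cancel_left _ _, norm_smul]
    have h2 : ‖z‖ < 1 := mem_ball_zero_iff.1 hz
    nlinarith [norm_nonneg z, norm_nonneg d]
  have hℓc : ContDiff ℂ ω ℓ := contDiff_const.add (contDiff_id.smul contDiff_const)
  have hℓd : ∀ z, HasDerivAt ℓ d z := fun z => by
    have k := ((hasDerivAt_id z).smul_const d).const_add p₀
    rw [one_smul] at k
    exact k
  have key := h.max (fun z => φ.symm (ℓ z))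
    (hφ.1.invFun.comp hℓc.contMDiff.contMDiffOn hℓ) (fun z hz => by
      have k1 := mfderiv_comp z (hφ.1.mdiffAt_symm (hℓ z hz))
        (hℓc.contMDiff.mdifferentiable (by simp) z)
      have k2 : mfderiv 𝓘(ℂ, ℂ) 𝓘(ℂ, E) (fun z => φ.symm (ℓ z)) z (1 : ℂ) =
          chartD (E := E) φ (ℓ z) d := by
        refine (congrArg (fun T : ℂ →L[ℂ] E => T 1) k1).trans ?_
        rw [mfderiv_eq_fderiv]
        exact congrArg (chartD (E := E) φ (ℓ z)) (hℓd z).deriv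
      rw [k2]
      refine (hφ.2 _ (φ.map_target (hℓ z hz)) _).2 ?_
      rw [hφ.1.mfderiv_chartD (hℓ z hz)])
    ⟨y, by
      show j y = φ.symm (p₀ + (0 : ℂ) • d)
      rw [zero_smul, add_zero, hp₀, φ.left_inv hy]⟩
  have htb : (t : ℂ) ∈ ball (0 : ℂ) 1 := by
    rw [mem_ball_zero_iff, Complex.norm_real, Real.norm_of_nonneg ht0.le]; exact ht2
  obtain ⟨z, hz⟩ := key ⟨t, htb, rfl⟩
  have hz' : j z = φ.symm (ℓ t) := hz
  refine ⟨z, by rw [hz']; exact φ.map_target (hℓ _ htb), ?_⟩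
  rw [hz', φ.right_inv (hℓ _ htb)]
  have ht' : (t : ℂ) ≠ 0 := Complex.ofReal_ne_zero.2 ht0.ne'
  refine Prod.ext ?_ ?_
  · show p₀.1 + (t : ℂ) • ((t : ℂ)⁻¹ • (a - p₀.1)) = a
    rw [smul_inv_smul₀ ht', add_sub_cancel]
  · show p₀.2 + (t : ℂ) • (0 : C) = p₀.2
    rw [smul_zero, add_zero]

/-- A leaf contained in a compact set is second countable. -/
theorem Imm.secondCountable [ConnectedSpace L] (h : Imm V F j) {K : Set X} (hK : IsCompact K)
    (hj : range j ⊆ K) (hdim : finrank ℂ V = finrank ℂ W) (hcov : ∀ x, ∃ φ ∈ folCharts F W C, x ∈ φ.source) :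
    SecondCountableTopology L := by
  have _ : ProperSpace W := FiniteDimensional.proper ℂ W
  choose φ hφ hx using hcov
  obtain ⟨s, -, hsU⟩ := hK.elim_nhds_subcover (fun x => (φ x).source)
    fun x _ => (φ x).open_source.mem_nhds (hx x)
  let S : s × C → Set L := fun a => {z | j z ∈ (φ a.1).source ∧ (φ a.1 (j z)).2 = a.2}
  have hSo : ∀ a, IsOpen (S a) := fun a => h.isOpen_slice (hφ a.1) a.2
  have hSc : ∀ a, SecondCountableTopology (S a) := by
    intro a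
    obtain ⟨χ, -, k2, -⟩ := h.exists_slice hdim (hφ a.1) a.2
    have := χ.secondCountableTopology_source
    rwa [k2] at this
  refine secondCountable_of_chain S hSo hSc ?_ ?_
  · intro y
    have : j y ∈ ⋃ x ∈ s, (φ x).source := hsU (hj ⟨y, rfl⟩)
    obtain ⟨x, hx, hy⟩ := mem_iUnion₂.1 this
    exact ⟨(⟨x, hx⟩, (φ x (j y)).2), hy, rfl⟩
  · intro a
    have _ : SecondCountableTopology (S a) := hSc a
    have h1 : {b | (S a ∩ S b).Nonempty} ⊆
        ⋃ x : s, Prod.mk x '' {c | (S a ∩ S (x, c)).Nonempty} := by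
      rintro ⟨x, c⟩ hj
      exact mem_iUnion.2 ⟨x, c, hj, rfl⟩
    refine (countable_iUnion fun x => ?_).mono h1
    apply Countable.image
    refine Set.PairwiseDisjoint.countable_of_isOpen
      (s := fun c => (Subtype.val ⁻¹' S (x, c) : Set (S a))) ?_ ?_ ?_
    · intro c _ c' _ hcc'
      rw [Function.onFun, Set.disjoint_left]
      rintro ⟨y, hy⟩ ⟨h1, h2⟩ ⟨h3, h4⟩
      exact hcc' (h2.symm.trans h4)
    · intro c _
      exact (hSo (x, c)).preimage continuous_subtype_val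
    · rintro c ⟨y, hy1, hy2⟩
      exact ⟨⟨y, hy1⟩, hy2⟩

omit [IsManifold 𝓘(ℂ, V) ω L] [FiniteDimensional ℂ V] [FiniteDimensional ℂ W] in
set_option backward.isDefEq.respectTransparency false in
/-- The parametrisation given by a slice chart. -/
theorem Imm.slice_symm (h : Imm V F j) {φ : OpenPartialHomeomorph X (W × C)}
    (hφ : IsHolChart (E := E) φ) {χ : OpenPartialHomeomorph L W} (hχ : IsHolChart (E := V) χ)
    {c : C} (hc : ∀ z ∈ χ.source, j z ∈ φ.source ∧ φ (j z) = (χ z, c)) {p : W}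
    (hp : p ∈ χ.target) :
    (p, c) ∈ φ.target ∧ j (χ.symm p) = φ.symm (p, c) ∧ ∀ u,
      (mfderiv 𝓘(ℂ, V) 𝓘(ℂ, E) j (χ.symm p) (chartD (E := V) χ p u) : E) =
        chartD (E := E) φ (p, c) (u, 0) := by
  have key : ∀ q ∈ χ.target, (q, c) ∈ φ.target ∧ j (χ.symm q) = φ.symm (q, c) := by
    intro q hq
    obtain ⟨k1, k2⟩ := hc _ (χ.map_target hq)
    rw [χ.right_inv hq] at k2
    rw [← k2]
    exact ⟨φ.map_source k1, (φ.left_inv k1).symm⟩
  refine ⟨(key p hp).1, (key p hp).2, fun u => ?_⟩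
  have e : (j ∘ χ.symm) =ᶠ[𝓝 p] (φ.symm ∘ fun q : W => ((q, c) : W × C)) := by
    filter_upwards [χ.open_target.mem_nhds hp] with q hq using (key q hq).2
  have k0 : HasFDerivAt (fun q : W => ((q, c) : W × C)) (ContinuousLinearMap.inl ℂ W C) p :=
    hasFDerivAt_prodMk_left p c
  have k1 := mfderiv_comp p (h.mdiff (χ.symm p)) (hχ.mdiffAt_symm hp)
  have k2 := mfderiv_comp (f := fun q : W => ((q, c) : W × C)) p (hφ.mdiffAt_symm (key p hp).1)
    k0.differentiableAt.mdifferentiableAt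
  rw [mfderiv_eq_fderiv, k0.fderiv] at k2
  exact congrArg (fun T : W →L[ℂ] E => T u) (k1.symm.trans (e.mfderiv_eq.trans k2))

end Vale.Agent.N278X
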