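import Vale.Agent.N278X.Slice

/-!
# P278: taming forms with uniform boxes
-/

set_option linter.all false

open Set Topology Filter Metric Module Complex
open scoped ContDiff Manifold ComplexConjugate

namespace Vale.Agent.N278X

open Vale.Agent.P278 Vale.Agent.P278.Full

/-- A family of real alternating two-forms. -/
structure Alt2 {P U : Type*} [NormedAddCommGroup U] [NormedSpace ℂ U] (w : P → U → U → ℝ) :
    Prop where
  add : ∀ x u v v', w x u (v + v') = w x u v + w x u v'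
  smul : ∀ x u v (c : ℝ), w x u ((c : ℂ) • v) = c * w x u v
  alt : ∀ x u v, w x u v = -w x v u

section alg
variable {P U : Type*} [NormedAddCommGroup U] [NormedSpace ℂ U] {w : P → U → U → ℝ}

lemma Alt2.comp {P' U' : Type*} [NormedAddCommGroup U'] [NormedSpace ℂ U'] (h : Alt2 w)
    (f : P' → P) (T : P' → U' →L[ℂ] U) : Alt2 fun x u v => w (f x) (T x u) (T x v) where
  add x u v v' := by rw [map_add, h.add]
  smul x u v c := by rw [map_smul, h.smul]
  alt x u v := h.alt _ _ _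

lemma Alt2.add_left (h : Alt2 w) (x : P) (u u' v : U) : w x (u + u') v = w x u v + w x u' v := by
  rw [h.alt, h.add, h.alt x v u, h.alt x v u']; ring

lemma Alt2.smul_left (h : Alt2 w) (x : P) (u v : U) (c : ℝ) :
    w x ((c : ℂ) • u) v = c * w x u v := by
  rw [h.alt, h.smul, h.alt x v u]; ring

lemma Alt2.smul_eq (h : Alt2 w) (x : P) (u v : U) (c : ℂ) :
    w x u (c • v) = c.re * w x u v + c.im * w x u (I • v) := by
  have : c • v = (c.re : ℂ) • v + (c.im : ℂ) • (I • v) := by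
    rw [smul_smul, ← add_smul, re_add_im]
  rw [this, h.add, h.smul, h.smul]

lemma Alt2.lin (h : Alt2 w) (x : P) (u : U) : IsLinearMap ℂ (T.herm w x u) where
  map_add v v' := by
    unfold T.herm
    rw [smul_add, h.add, h.add, h.add, h.add]
    push_cast
    ring
  map_smul c v := by
    unfold T.herm
    rw [smul_smul, h.smul_eq x u v (I * c), h.smul_eq x (I • u) v c, h.smul_eq x u v c,
      h.smul_eq x (I • u) v (I * c)]
    apply Complex.ext <;> simp <;> ring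

lemma Alt2.symm (h : Alt2 w) (x : P) (u v : U) : conj (T.herm w x u v) = T.herm w x v u := by
  unfold T.herm
  rw [h.alt x v (I • u), h.alt x (I • v) u, h.alt x v u, h.alt x (I • v) (I • u)]
  simp only [map_add, map_mul, conj_ofReal, conj_I]
  push_cast
  ring

variable [FiniteDimensional ℂ U]

/-- The form as a continuous bilinear map. -/
noncomputable def Alt2.clm (h : Alt2 w) (p : P) : U →L[ℝ] U →L[ℝ] ℝ :=
  LinearMap.toContinuousLinearMap
    ((LinearMap.toContinuousLinearMap : (U →ₗ[ℝ] ℝ) ≃ₗ[ℝ] (U →L[ℝ] ℝ)).toLinearMap ∘ₗ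
      LinearMap.mk₂ ℝ (w p) (h.add_left p) (fun c u v => h.smul_left p u v c) (h.add p)
        (fun c u v => h.smul p u v c))

lemma Alt2.clm_apply (h : Alt2 w) (p : P) (u v : U) : h.clm p u v = w p u v := rfl

theorem Alt2.bounds [TopologicalSpace P] (h : Alt2 w) {K : Set P} (hK : IsCompact K)
    (hc : ∀ u v, ContinuousOn (fun q => w q u v) K)
    (hp : ∀ q ∈ K, ∀ v, v ≠ 0 → 0 < w q v (I • v)) :
    ∃ c > 0, ∃ C > 0, ∀ q ∈ K, (∀ v, c * ‖v‖ ^ 2 ≤ w q v (I • v)) ∧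
      ∀ u v, |w q u v| ≤ C * ‖u‖ * ‖v‖ := by
  haveI : ProperSpace U := FiniteDimensional.proper ℂ U
  have h1 : ContinuousOn h.clm K :=
    continuousOn_clm_apply.2 fun u => continuousOn_clm_apply.2 fun v => hc u v
  obtain ⟨D, hD⟩ := hK.exists_bound_of_continuousOn (E := U →L[ℝ] U →L[ℝ] ℝ) h1
  have hcont : ContinuousOn (fun q : P × U => h.clm q.1 q.2 (I • q.2)) (K ×ˢ sphere (0 : U) 1) :=
    ((h1.comp continuousOn_fst fun q hq => hq.1).clm_apply continuousOn_snd).clm_apply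
      (continuousOn_snd.const_smul I)
  obtain ⟨c, hc0, hc⟩ := (hK.prod (isCompact_sphere (0 : U) 1)).exists_forall_le' hcont
    (a := 0) (fun q hq => hp _ hq.1 _ fun h0 => by
      have := hq.2
      rw [h0, mem_sphere_zero_iff_norm, norm_zero] at this
      norm_num at this)
  refine ⟨c, hc0, max D 1, lt_max_of_lt_right one_pos, fun q hq => ⟨fun v => ?_, fun u v => ?_⟩⟩
  · rcases eq_or_ne v 0 with rfl | hv
    · rw [← h.clm_apply]; simp
    · have hn : (‖v‖ : ℝ) ≠ 0 := norm_ne_zero_iff.2 hv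
      have hu : (((‖v‖⁻¹ : ℝ) : ℂ) • v) ∈ sphere (0 : U) 1 := by
        rw [mem_sphere_zero_iff_norm, norm_smul, Complex.norm_real, norm_inv, norm_norm]
        exact inv_mul_cancel₀ hn
      have k := hc (q, ((‖v‖⁻¹ : ℝ) : ℂ) • v) ⟨hq, hu⟩
      rw [h.clm_apply, smul_comm, h.smul, h.smul_left] at k
      have k2 := mul_le_mul_of_nonneg_right k (sq_nonneg ‖v‖)
      refine k2.trans (le_of_eq ?_)
      field_simp
  · have k1 := (h.clm q).le_opNorm₂ u v
    rw [h.clm_apply, Real.norm_eq_abs] at k1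
    refine k1.trans ?_
    have k2 : ‖h.clm q‖ ≤ max D 1 := (hD q hq).trans (le_max_left _ _)
    gcongr

end alg

variable {V : Type*} [NormedAddCommGroup V] [NormedSpace ℂ V]
  {L : Type*} [TopologicalSpace L] [ChartedSpace V L]
  {W : Type*} [NormedAddCommGroup W] [NormedSpace ℂ W] {w : L → V → V → ℝ}

/-- The Hermitian form. -/
noncomputable def Alt2.form (h : Alt2 w) : TangentForm V L :=
  bundleF (h := T.herm w) h.lin h.symm

lemma Alt2.localForm_eq (h : Alt2 w) (φ : OpenPartialHomeomorph L W) (p u v : W) :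
    localForm h.form φ p u v =
      ((T.locW V w φ p u (I • v) - T.locW V w φ p (I • u) v) / 2 : ℝ) +
        ((T.locW V w φ p u v + T.locW V w φ p (I • u) (I • v)) / 2 : ℝ) * I := by
  unfold T.locW
  rw [map_smul, map_smul]
  rfl

lemma Alt2.loc (h : Alt2 w) (φ : OpenPartialHomeomorph L W) : Alt2 (T.locW V w φ) :=
  h.comp φ.symm (fun p => chartD (E := V) φ p)

lemma Alt2.re_eq (h : Alt2 w) (φ : OpenPartialHomeomorph L W) (p u v : W) :
    2 * (localForm h.form φ p u v).re = T.locW V w φ p u (I • v) - T.locW V w φ p (I • u) v := by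
  rw [h.localForm_eq]
  simp only [add_re, ofReal_re, mul_re, I_re, mul_zero, ofReal_im, I_im, mul_one, sub_self,
    add_zero]
  ring

lemma Alt2.re_self (h : Alt2 w) (φ : OpenPartialHomeomorph L W) (p u : W) :
    (localForm h.form φ p u u).re = T.locW V w φ p u (I • u) := by
  have h1 := h.re_eq φ p u u
  have h2 := (h.loc φ).alt p (I • u) u
  linarith

variable {A B : Type*} [NormedAddCommGroup A] [NormedSpace ℂ A] [NormedAddCommGroup B]
  [NormedSpace ℂ B] {G₁ G₂ : TangentDist V L} {𝒬 : Set (OpenPartialHomeomorph L (A × B))}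

theorem prodCharts_of_sub [IsManifold 𝓘(ℂ, V) ω L] (h : 𝒬 ⊆ prodCharts G₁ G₂ A B)
    (hc : ∀ y, ∃ χ ∈ 𝒬, y ∈ χ.source) : ProdCharts G₁ G₂ 𝒬 where
  atlas :=
    { cover := hc
      toFun := fun _ hφ => (h hφ).1
      invFun := fun _ hφ => (h hφ).2.1
      trans := fun _ hφ _ hψ _ hx hx' => trans_snd (h hφ) (h hψ) hx hx'
      trans' := fun _ hφ _ hψ _ hx hx' => trans_fst (h hφ) (h hψ) hx hx' }
  mem₁ := fun _ hφ x hx v => ((h hφ).2.2 x hx v).1
  mem₂ := fun _ hφ x hx v => ((h hφ).2.2 x hx v).2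

/-- An atlas of product charts with a closed taming form and uniform boxes. -/
theorem kAtlas_of_box [IsManifold 𝓘(ℂ, V) ω L] [FiniteDimensional ℂ A] [FiniteDimensional ℂ B]
    (h : Alt2 w) (hQ : 𝒬 ⊆ prodCharts G₁ G₂ A B)
    (pos : ∀ χ ∈ 𝒬, ∀ p ∈ χ.target, ∀ v, v ≠ 0 → 0 < T.locW V w χ p v (I • v))
    (smooth : ∀ χ ∈ 𝒬, ∀ u v, ContDiffOn ℝ 1 (fun p => T.locW V w χ p u v) χ.target)
    (closed : ∀ χ ∈ 𝒬, ∀ p ∈ χ.target, ∀ u v t, T.dForm (T.locW V w χ) p u v t = 0)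
    (box : ∃ δ > 0, ∃ c > 0, ∃ C > 0, ∀ y, ∃ χ ∈ 𝒬, y ∈ χ.source ∧
      closedBall (χ y) δ ⊆ χ.target ∧ ∀ p ∈ closedBall (χ y) δ,
        (∀ v, c * ‖v‖ ^ 2 ≤ T.locW V w χ p v (I • v)) ∧
        ∀ u v, |T.locW V w χ p u v| ≤ C * ‖u‖ * ‖v‖) :
    T.KAtlas 𝒬 (fun χ => localForm h.form χ) := by
  haveI : CompleteSpace A := FiniteDimensional.complete ℂ A
  haveI : CompleteSpace B := FiniteDimensional.complete ℂ B
  obtain ⟨δ, hδ, c, hc, C, hC, hb⟩ := box
  have hcov : ∀ y, ∃ χ ∈ 𝒬, y ∈ χ.source := fun y => by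
    obtain ⟨χ, k1, k2, -⟩ := hb y
    exact ⟨χ, k1, k2⟩
  have hPA := (prodCharts_of_sub hQ hcov).atlas
  have hchart : ∀ φ ∈ 𝒬, IsHolChart (E := V) φ := fun φ hφ => ⟨(hQ hφ).1, (hQ hφ).2.1⟩
  refine { cover := hcov, ana := ?_, trans := hPA.trans, trans' := hPA.trans',
           kahler := fun φ hφ => ⟨φ.open_target, fun p _ u v => h.symm _ _ _,
             fun p hp u hu => ?_, fun u v => ?_⟩, compat := ?_,
           tame := ⟨fun φ => T.locW V w φ, fun φ hφ => ⟨(h.loc φ).add, (h.loc φ).smul,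
             (h.loc φ).alt, smooth φ hφ, fun p _ u v => h.re_eq φ p u v⟩, ?_,
             fun φ hφ p hp u v _ _ => ⟨closed φ hφ p hp _ _ _, closed φ hφ p hp _ _ _⟩, ?_⟩ }
  · intro φ hφ ψ hψ x hx hx'
    have h1 : ContMDiffAt 𝓘(ℂ, A × B) 𝓘(ℂ, V) ω φ.symm (φ x) :=
      (hchart φ hφ).invFun.contMDiffAt (φ.open_target.mem_nhds (φ.map_source hx))
    have h2 : ContMDiffAt 𝓘(ℂ, V) 𝓘(ℂ, A × B) ω ψ (φ.symm (φ x)) := by
      rw [φ.left_inv hx]
      exact (hchart ψ hψ).toFun.contMDiffAt (ψ.open_source.mem_nhds hx')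
    have h3 : ContMDiffAt 𝓘(ℂ, A × B) 𝓘(ℂ, A × B) ω (fun p => ψ (φ.symm p)) (φ x) :=
      h2.comp (φ x) h1
    exact h3.contDiffAt.analyticAt
  · rw [h.re_self]
    exact pos φ hφ p hp u hu
  · simp only [h.localForm_eq]
    have hsm := smooth φ hφ
    exact (ofRealCLM.contDiff.comp_contDiffOn (((hsm _ _).sub (hsm _ _)).div_const 2)).add
      ((ofRealCLM.contDiff.comp_contDiffOn (((hsm _ _).add (hsm _ _)).div_const 2)).mul
        contDiffOn_const)
  · intro φ hφ ψ hψ x hx hx' u v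
    have h1 := localForm_trans h.form (hchart φ hφ) (hchart ψ hψ) (φ.map_source hx)
      (by rw [φ.left_inv hx]; exact hx') u v
    rw [φ.left_inv hx] at h1
    exact h1
  · intro φ hφ ψ hψ x hx hx' u v
    have h1 := T.locW_trans w (hchart φ hφ) (hchart ψ hψ) (φ.map_source hx)
      (by rw [φ.left_inv hx]; exact hx') u v
    rw [φ.left_inv hx] at h1
    exact h1
  · refine ⟨δ, hδ, c, hc, C, hC, fun y => ?_⟩
    obtain ⟨χ, k1, k2, k3, k4⟩ := hb y
    refine ⟨χ, k1, k2, k3, fun p hp => ⟨fun v => ?_, (k4 p hp).2⟩⟩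
    rw [h.re_self]
    refine ⟨(k4 p hp).1 v, (le_abs_self _).trans (((k4 p hp).2 _ _).trans (le_of_eq ?_))⟩
    rw [norm_smul, norm_I, one_mul]
    ring

/-- Uniform boxes around the points of a compact set. -/
theorem exists_box {X P U : Type*} [TopologicalSpace X] [NormedAddCommGroup P] [ProperSpace P]
    [NormedAddCommGroup U] [NormedSpace ℂ U] [FiniteDimensional ℂ U]
    {𝒯 : Set (OpenPartialHomeomorph X P)} {b : OpenPartialHomeomorph X P → P → U → U → ℝ}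
    (cover : ∀ x, ∃ φ ∈ 𝒯, x ∈ φ.source) (ha : ∀ φ, Alt2 (b φ))
    (hc : ∀ φ ∈ 𝒯, ∀ u v, ContinuousOn (fun q => b φ q u v) φ.target)
    (hp : ∀ φ ∈ 𝒯, ∀ q ∈ φ.target, ∀ v, v ≠ 0 → 0 < b φ q v (I • v))
    {K : Set X} (hK : IsCompact K) :
    ∃ δ > 0, ∃ c > 0, ∃ C > 0, ∀ x ∈ K, ∃ φ ∈ 𝒯, x ∈ φ.source ∧
      closedBall (φ x) δ ⊆ φ.target ∧ ∀ p ∈ closedBall (φ x) δ,
        (∀ v, c * ‖v‖ ^ 2 ≤ b φ p v (I • v)) ∧ ∀ u v, |b φ p u v| ≤ C * ‖u‖ * ‖v‖ := by
  refine hK.induction_on ⟨1, one_pos, 1, one_pos, 1, one_pos, fun x hx => hx.elim⟩ ?_ ?_ ?_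
  · rintro s t hst ⟨δ, hδ, c, hc, C, hC, h⟩
    exact ⟨δ, hδ, c, hc, C, hC, fun x hx => h x (hst hx)⟩
  · rintro s t ⟨δ, hδ, c, hc, C, hC, h⟩ ⟨δ', hδ', c', hc', C', hC', h'⟩
    have key : ∀ {δ₀ c₀ C₀ : ℝ} {x : X}, min δ δ' ≤ δ₀ → min c c' ≤ c₀ → C₀ ≤ max C C' →
        (∃ φ ∈ 𝒯, x ∈ φ.source ∧ closedBall (φ x) δ₀ ⊆ φ.target ∧
          ∀ p ∈ closedBall (φ x) δ₀, (∀ v, c₀ * ‖v‖ ^ 2 ≤ b φ p v (I • v)) ∧
            ∀ u v, |b φ p u v| ≤ C₀ * ‖u‖ * ‖v‖) →
        ∃ φ ∈ 𝒯, x ∈ φ.source ∧ closedBall (φ x) (min δ δ') ⊆ φ.target ∧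
          ∀ p ∈ closedBall (φ x) (min δ δ'), (∀ v, min c c' * ‖v‖ ^ 2 ≤ b φ p v (I • v)) ∧
            ∀ u v, |b φ p u v| ≤ max C C' * ‖u‖ * ‖v‖ := by
      rintro δ₀ c₀ C₀ x h1 h2 h3 ⟨φ, hφ, k1, k2, k3⟩
      have hs := closedBall_subset_closedBall (x := φ x) h1
      refine ⟨φ, hφ, k1, hs.trans k2, fun p hp => ⟨fun v => ?_, fun u v => ?_⟩⟩
      · exact (mul_le_mul_of_nonneg_right h2 (by positivity)).trans ((k3 p (hs hp)).1 v)
      · refine ((k3 p (hs hp)).2 u v).trans ?_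
        gcongr
    refine ⟨min δ δ', lt_min hδ hδ', min c c', lt_min hc hc', max C C', lt_max_of_lt_left hC, ?_⟩
    rintro x (hx | hx)
    · exact key (min_le_left _ _) (min_le_left _ _) (le_max_left _ _) (h x hx)
    · exact key (min_le_right _ _) (min_le_right _ _) (le_max_right _ _) (h' x hx)
  · intro x _
    obtain ⟨φ, hφ, hx⟩ := cover x
    obtain ⟨r, hr, hrs⟩ := Metric.nhds_basis_closedBall.mem_iff.1
      (φ.open_target.mem_nhds (φ.map_source hx))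
    obtain ⟨c, hc, C, hC, h⟩ := (ha φ).bounds (isCompact_closedBall _ _)
      (fun u v => (hc φ hφ u v).mono hrs) fun q hq => hp φ hφ q (hrs hq)
    refine ⟨φ.source ∩ φ ⁻¹' ball (φ x) (r / 2), mem_nhdsWithin_of_mem_nhds
      ((φ.isOpen_inter_preimage isOpen_ball).mem_nhds ⟨hx, mem_ball_self (half_pos hr)⟩),
      r / 2, half_pos hr, c, hc, C, hC, fun y hy => ?_⟩
    have hsub : closedBall (φ y) (r / 2) ⊆ closedBall (φ x) r := by
      intro p hp
      have h1 : dist (φ y) (φ x) < r / 2 := hy.2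
      have h2 : dist p (φ y) ≤ r / 2 := hp
      have h3 := dist_triangle p (φ y) (φ x)
      show dist p (φ x) ≤ r
      linarith
    exact ⟨φ, hφ, hy.1, hsub.trans hrs, fun p hp => h p (hsub hp)⟩

end Vale.Agent.N278X
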